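import Mathlib

/-!
# P365-T2, row X-CLOSE: the arc `{x : (P x + Q)² < s² (1 + x²)}` has measure `≤ 2 π s` for
`dx/(1+x²)`.
-/

set_option linter.all false

namespace P365T2.H486

open MeasureTheory Set Real
open scoped ENNReal

/-- the substitution `x = tan ψ` -/
theorem lint_tan (F : ℝ → ℝ≥0∞) :
    ∫⁻ x, F x * ENNReal.ofReal (1 / (1 + x ^ 2)) =
      ∫⁻ ψ in Ioo (-(π / 2)) (π / 2), F (tan ψ) := by
  have h1 : ∫⁻ x, F x * ENNReal.ofReal (1 / (1 + x ^ 2)) =
      ∫⁻ x in tan '' Ioo (-(π / 2)) (π / 2), F x * ENNReal.ofReal (1 / (1 + x ^ 2)) := by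
    rw [image_tan_Ioo, Measure.restrict_univ]
  have hd : ∀ ψ ∈ Ioo (-(π / 2)) (π / 2),
      HasDerivWithinAt tan (1 / cos ψ ^ 2) (Ioo (-(π / 2)) (π / 2)) ψ := by
    intro ψ hψ
    exact (hasDerivAt_tan (cos_pos_of_mem_Ioo hψ).ne').hasDerivWithinAt
  have hinj : InjOn tan (Ioo (-(π / 2)) (π / 2)) := injOn_tan
  rw [h1, lintegral_image_eq_lintegral_abs_deriv_mul measurableSet_Ioo hd hinj]
  refine setLIntegral_congr_fun measurableSet_Ioo fun ψ hψ => ?_
  have hc := cos_pos_of_mem_Ioo hψ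
  have h2 : 1 + tan ψ ^ 2 = 1 / cos ψ ^ 2 := by
    rw [tan_eq_sin_div_cos]
    field_simp
    linarith [sin_sq_add_cos_sq ψ]
  rw [h2, abs_of_pos (by positivity), one_div_one_div, mul_comm (F _), ← mul_assoc,
    ← ENNReal.ofReal_mul (by positivity)]
  have h3 : 1 / cos ψ ^ 2 * cos ψ ^ 2 = 1 := by field_simp
  rw [h3, ENNReal.ofReal_one, one_mul]

/-- the arc -/
theorem arc_le {φ : ℝ} (h0 : 0 ≤ φ) (h1 : φ ≤ π) {s : ℝ} (hs : 0 ≤ s) :
    ∫⁻ x, ({x : ℝ | (cos φ * x + sin φ) ^ 2 < s ^ 2 * (1 + x ^ 2)}.indicator (fun _ => (1 : ℝ≥0∞)) x)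
        * ENNReal.ofReal (1 / (1 + x ^ 2)) ≤ ENNReal.ofReal (2 * π * s) := by
  rw [lint_tan]
  have hπ := pi_pos
  set S : Set ℝ := Icc (-φ - π / 2 * s) (-φ + π / 2 * s) ∪
    Icc (π - φ - π / 2 * s) (π - φ + π / 2 * s) with hS
  have hSm : MeasurableSet S := measurableSet_Icc.union measurableSet_Icc
  have h2 : ∀ ψ ∈ Ioo (-(π / 2)) (π / 2),
      ({x : ℝ | (cos φ * x + sin φ) ^ 2 < s ^ 2 * (1 + x ^ 2)}.indicator (fun _ => (1 : ℝ≥0∞))
        (tan ψ)) ≤ S.indicator (fun _ => (1 : ℝ≥0∞)) ψ := by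
    intro ψ hψ
    by_cases hB : tan ψ ∈ {x : ℝ | (cos φ * x + sin φ) ^ 2 < s ^ 2 * (1 + x ^ 2)}
    · rw [indicator_of_mem hB]
      have hc := cos_pos_of_mem_Ioo hψ
      have h3 : sin (ψ + φ) ^ 2 < s ^ 2 := by
        have h4 : (cos φ * tan ψ + sin φ) ^ 2 < s ^ 2 * (1 + tan ψ ^ 2) := hB
        have h5 : cos φ * tan ψ + sin φ = sin (ψ + φ) / cos ψ := by
          rw [tan_eq_sin_div_cos, sin_add]
          field_simp
        have h6 : 1 + tan ψ ^ 2 = 1 / cos ψ ^ 2 := by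
          rw [tan_eq_sin_div_cos]
          field_simp
          linarith [sin_sq_add_cos_sq ψ]
        rw [h5, h6, div_pow, mul_one_div, div_lt_div_iff_of_pos_right (by positivity)] at h4
        exact h4
      have h4 : |sin (ψ + φ)| < s := abs_lt_of_sq_lt_sq h3 hs
      have hmem : ψ ∈ S := by
        rcases le_or_gt (ψ + φ) (π / 2) with h5 | h5
        · left
          have h6 : |ψ + φ| ≤ π / 2 := abs_le.2 ⟨by linarith [hψ.1], h5⟩
          have h7 := mul_abs_le_abs_sin h6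
          have h8 : |ψ + φ| ≤ π / 2 * s := by
            have h9 : 2 / π * |ψ + φ| ≤ s := h7.trans h4.le
            rw [div_mul_eq_mul_div, div_le_iff₀ hπ] at h9
            linarith
          have h9 := abs_le.1 h8
          exact ⟨by linarith [h9.1], by linarith [h9.2]⟩
        · right
          have h6 : |ψ + φ - π| ≤ π / 2 := abs_le.2 ⟨by linarith, by linarith [hψ.2]⟩
          have h7 := mul_abs_le_abs_sin h6
          rw [sin_sub_pi, abs_neg] at h7
          have h8 : |ψ + φ - π| ≤ π / 2 * s := by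
            have h9 : 2 / π * |ψ + φ - π| ≤ s := h7.trans h4.le
            rw [div_mul_eq_mul_div, div_le_iff₀ hπ] at h9
            linarith
          have h9 := abs_le.1 h8
          exact ⟨by linarith [h9.1], by linarith [h9.2]⟩
      rw [indicator_of_mem hmem]
    · rw [indicator_of_notMem hB]
      exact zero_le
  calc ∫⁻ ψ in Ioo (-(π / 2)) (π / 2),
        ({x : ℝ | (cos φ * x + sin φ) ^ 2 < s ^ 2 * (1 + x ^ 2)}.indicator (fun _ => (1 : ℝ≥0∞))
        (tan ψ))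
      ≤ ∫⁻ ψ in Ioo (-(π / 2)) (π / 2), S.indicator (fun _ => (1 : ℝ≥0∞)) ψ :=
        setLIntegral_mono' measurableSet_Ioo h2
    _ ≤ ∫⁻ ψ, S.indicator (fun _ => (1 : ℝ≥0∞)) ψ := setLIntegral_le_lintegral _ _
    _ = volume S := by rw [lintegral_indicator hSm, setLIntegral_one]
    _ ≤ volume (Icc (-φ - π / 2 * s) (-φ + π / 2 * s)) +
        volume (Icc (π - φ - π / 2 * s) (π - φ + π / 2 * s)) := measure_union_le _ _
    _ = ENNReal.ofReal (2 * π * s) := by
        rw [Real.volume_Icc, Real.volume_Icc, ← ENNReal.ofReal_add (by nlinarith) (by nlinarith)]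
        congr 1
        ring

end P365T2.H486
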