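import Vale.Agent.P365.T2.Static423

/-!
# P365-T2, row X-KEY (292's note 19925 (4)): the key step, deterministic, one row.

`e_w = -(W w).im`, `Q_wy = e_w e_y |G_wy|²`, `π_w = e_w m_w`, `P_w(y) = Q_wy / π_w`.

* `key_row`, `key_row_sqrt`: `(∑_{A₀} e_w |Y_wx|²)^(1/2) ≤ 2 (∑_{A₁} e_y |T_yx|²)^(1/2) +
  2 O^(1/2) (∑ e_y |Y_yx|²)^(1/2)`, `O = ∑_{w ∈ A₀, y ∉ A₁} Q_wy`, for all finsets `A₀ ⊆ A₁`.
* `key_fam`: the same for a finite family of test functions.
* `outflux_le`: the deterministic part of the bound of `O`.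
* `row_linear`: the final linear inequality for one row.
-/

set_option linter.all false

namespace P365T2.H486

open Matrix Complex P365L P365T2.Static
open scoped ComplexConjugate

variable {ι : Type*} [Fintype ι] [DecidableEq ι]
variable {A : Matrix ι ι ℝ} {W : ι → ℂ} {a : ι → ℝ}

/-- `Q_wy = e_w e_y K_wy` -/
noncomputable def Qf (A : Matrix ι ι ℝ) (W : ι → ℂ) (w y : ι) : ℝ :=
  (-(W w).im) * (-(W y).im) * KK A W w y

/-- `π_w = e_w m_w` -/
noncomputable def pif (A : Matrix ι ι ℝ) (W : ι → ℂ) (w : ι) : ℝ := (-(W w).im) * mm A W w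

theorem Qf_nonneg (hW : ∀ x, (W x).im < 0) (w y : ι) : 0 ≤ Qf A W w y := by
  have h1 := hW w
  have h2 := hW y
  exact mul_nonneg (mul_nonneg (by linarith) (by linarith)) (KK_nonneg w y)

theorem Qf_symm (hA : A.IsSymm) (w y : ι) : Qf A W w y = Qf A W y w := by
  rw [Qf, Qf, KK_symm hA w y]; ring

theorem pif_pos (hA : A.IsSymm) (hW : ∀ x, (W x).im < 0) (w : ι) : 0 < pif A W w :=
  mul_pos (by linarith [hW w]) (mm_pos hA hW w)

theorem Qf_eq (hA : A.IsSymm) (hW : ∀ x, (W x).im < 0) (w y : ι) :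
    Qf A W w y = pif A W w * PP A W w y := by
  have h := (mm_pos hA hW w).ne'
  rw [Qf, pif, PP]
  field_simp

theorem Qf_sum (hA : A.IsSymm) (hW : ∀ x, (W x).im < 0) (w : ι) :
    ∑ y, Qf A W w y = pif A W w := by
  have h : ∀ y ∈ Finset.univ, Qf A W w y = pif A W w * PP A W w y := fun y _ => Qf_eq hA hW w y
  rw [Finset.sum_congr rfl h, ← Finset.mul_sum, PP_sum hA hW, mul_one]

/-- weighted Cauchy-Schwarz on a finset -/
theorem cs_w (S : Finset ι) {e p q : ι → ℝ} (he : ∀ w ∈ S, 0 ≤ e w) :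
    (∑ w ∈ S, e w * (p w * q w)) ^ 2 ≤ (∑ w ∈ S, e w * p w ^ 2) * ∑ w ∈ S, e w * q w ^ 2 := by
  have h1 := Finset.sum_mul_sq_le_sq_mul_sq S (fun w => Real.sqrt (e w) * p w)
    (fun w => Real.sqrt (e w) * q w)
  have h2 : ∑ w ∈ S, (Real.sqrt (e w) * p w) * (Real.sqrt (e w) * q w) =
      ∑ w ∈ S, e w * (p w * q w) := by
    refine Finset.sum_congr rfl fun w hw => ?_
    have := Real.mul_self_sqrt (he w hw)
    calc (Real.sqrt (e w) * p w) * (Real.sqrt (e w) * q w)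
        = (Real.sqrt (e w) * Real.sqrt (e w)) * (p w * q w) := by ring
      _ = _ := by rw [this]
  have h3 : ∀ r : ι → ℝ, ∑ w ∈ S, (Real.sqrt (e w) * r w) ^ 2 = ∑ w ∈ S, e w * r w ^ 2 := by
    intro r
    refine Finset.sum_congr rfl fun w hw => ?_
    rw [mul_pow, Real.sq_sqrt (he w hw)]
  rw [h2, h3, h3] at h1
  exact h1

/-- the outflux of `A₀` through the complement of `A₁` -/
noncomputable def outflux (A : Matrix ι ι ℝ) (W : ι → ℂ) (A0 A1 : Finset ι) : ℝ :=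
  ∑ w ∈ A0, ∑ y ∈ A1ᶜ, Qf A W w y

theorem outflux_nonneg (hW : ∀ x, (W x).im < 0) (A0 A1 : Finset ι) : 0 ≤ outflux A W A0 A1 :=
  Finset.sum_nonneg fun w _ => Finset.sum_nonneg fun y _ => Qf_nonneg hW w y

/-- off `A₁`, `U 1_{A₀} s` is small -/
theorem off_le (hA : A.IsSymm) (hW : ∀ x, (W x).im < 0) {A0 A1 : Finset ι} (h01 : A0 ⊆ A1)
    (s : ι → ℂ) :
    ∑ y ∈ A1ᶜ, (-(W y).im) * ‖(Uw A W).mulVec (fun u => if u ∈ A0 then s u else 0) y‖ ^ 2 ≤
      4 * outflux A W A0 A1 * ∑ w ∈ A0, (-(W w).im) * ‖s w‖ ^ 2 := by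
  classical
  have he : ∀ w, 0 ≤ -(W w).im := fun w => by linarith [hW w]
  have h1 : ∀ y ∈ A1ᶜ, (-(W y).im) *
      ‖(Uw A W).mulVec (fun u => if u ∈ A0 then s u else 0) y‖ ^ 2 ≤
      (4 * ∑ w ∈ A0, (-(W w).im) * ‖s w‖ ^ 2) * ∑ w ∈ A0, Qf A W w y := by
    intro y hy
    have hy1 : y ∉ A1 := by simpa using hy
    have hy0 : y ∉ A0 := fun h => hy1 (h01 h)
    rw [Uw_mulVec _ _ hA, if_neg hy0, zero_sub, norm_neg, norm_mul]
    have hn : ‖(2 * I : ℂ)‖ = 2 := by simp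
    rw [hn]
    have h2 : ∑ u, conj (Gr A W y u) * (((-(W u).im : ℝ) : ℂ) * (if u ∈ A0 then s u else 0)) =
        ∑ u ∈ A0, conj (Gr A W y u) * (((-(W u).im : ℝ) : ℂ) * s u) := by
      rw [← Finset.sum_filter_add_sum_filter_not Finset.univ (fun u => u ∈ A0)]
      have h3 : ∑ u ∈ Finset.univ.filter (fun u => ¬ u ∈ A0),
          conj (Gr A W y u) * (((-(W u).im : ℝ) : ℂ) * (if u ∈ A0 then s u else 0)) = 0 := by
        refine Finset.sum_eq_zero fun u hu => ?_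
        rw [if_neg (Finset.mem_filter.1 hu).2, mul_zero, mul_zero]
      rw [h3, add_zero]
      refine Finset.sum_congr (by ext u; simp) fun u hu => ?_
      rw [if_pos]
      simpa using hu
    rw [h2]
    have h4 : ‖∑ u ∈ A0, conj (Gr A W y u) * (((-(W u).im : ℝ) : ℂ) * s u)‖ ≤
        ∑ u ∈ A0, (-(W u).im) * (‖Gr A W y u‖ * ‖s u‖) := by
      refine (norm_sum_le _ _).trans (Finset.sum_le_sum fun u _ => ?_)
      rw [norm_mul, norm_mul, RCLike.norm_conj, Complex.norm_real, Real.norm_of_nonneg (he u)]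
      exact le_of_eq (by ring)
    have h5 : (∑ u ∈ A0, (-(W u).im) * (‖Gr A W y u‖ * ‖s u‖)) ^ 2 ≤
        (∑ u ∈ A0, (-(W u).im) * ‖Gr A W y u‖ ^ 2) * ∑ u ∈ A0, (-(W u).im) * ‖s u‖ ^ 2 :=
      cs_w A0 fun u _ => he u
    have h6 : (2 * ‖∑ u ∈ A0, conj (Gr A W y u) * (((-(W u).im : ℝ) : ℂ) * s u)‖) ^ 2 ≤
        4 * ((∑ u ∈ A0, (-(W u).im) * ‖Gr A W y u‖ ^ 2) *
          ∑ u ∈ A0, (-(W u).im) * ‖s u‖ ^ 2) := by
      have h7 : ‖∑ u ∈ A0, conj (Gr A W y u) * (((-(W u).im : ℝ) : ℂ) * s u)‖ ^ 2 ≤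
          (∑ u ∈ A0, (-(W u).im) * (‖Gr A W y u‖ * ‖s u‖)) ^ 2 :=
        pow_le_pow_left₀ (norm_nonneg _) h4 2
      nlinarith
    refine (mul_le_mul_of_nonneg_left h6 (he y)).trans (le_of_eq ?_)
    have h8 : ∑ w ∈ A0, Qf A W w y = (-(W y).im) * ∑ u ∈ A0, (-(W u).im) * ‖Gr A W y u‖ ^ 2 := by
      rw [Finset.mul_sum]
      refine Finset.sum_congr rfl fun w _ => ?_
      rw [Qf_symm hA, Qf, KK]
      ring
    rw [h8]
    ring
  refine (Finset.sum_le_sum h1).trans (le_of_eq ?_)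
  rw [← Finset.mul_sum, outflux, Finset.sum_comm]
  ring

/-- `∑ e |U s|² = ∑ e |s|²` -/
theorem Uw_norm (hA : A.IsSymm) (hW : ∀ x, (W x).im < 0) (s : ι → ℂ) :
    ∑ w, (-(W w).im) * ‖(Uw A W).mulVec s w‖ ^ 2 = ∑ w, (-(W w).im) * ‖s w‖ ^ 2 := by
  have h := Uw_inner hA hW s s
  have h1 : ∀ p : ι → ℂ, ∑ w, ((-(W w).im : ℝ) : ℂ) * (conj (p w) * p w) =
      ((∑ w, (-(W w).im) * ‖p w‖ ^ 2 : ℝ) : ℂ) := by
    intro p
    rw [Complex.ofReal_sum]
    refine Finset.sum_congr rfl fun w _ => ?_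
    rw [Complex.ofReal_mul, ← Complex.normSq_eq_norm_sq, Complex.normSq_eq_conj_mul_self]
  rw [h1, h1] at h
  exact_mod_cast h

/-- **KEY STEP**, vector form: for every vector `s`. -/
theorem key_vec (hA : A.IsSymm) (hW : ∀ x, (W x).im < 0) {A0 A1 : Finset ι} (h01 : A0 ⊆ A1)
    (s : ι → ℂ) :
    Real.sqrt (∑ w ∈ A0, (-(W w).im) * ‖s w‖ ^ 2) ≤
      Real.sqrt (∑ y ∈ A1, (-(W y).im) * ‖(Uw A W).mulVec s y‖ ^ 2) +
      2 * Real.sqrt (outflux A W A0 A1) * Real.sqrt (∑ y, (-(W y).im) * ‖s y‖ ^ 2) := by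
  classical
  have he : ∀ w, 0 ≤ -(W w).im := fun w => by linarith [hW w]
  set s0 : ι → ℂ := fun u => if u ∈ A0 then s u else 0 with hs0
  set p : ι → ℂ := (Uw A W).mulVec s0 with hp
  set q : ι → ℂ := (Uw A W).mulVec s with hq
  set N0 : ℝ := ∑ w ∈ A0, (-(W w).im) * ‖s w‖ ^ 2 with hN0
  set S1 : ℝ := ∑ y ∈ A1, (-(W y).im) * ‖q y‖ ^ 2 with hS1
  set N : ℝ := ∑ y, (-(W y).im) * ‖s y‖ ^ 2 with hN
  set O : ℝ := outflux A W A0 A1 with hO
  have hO0 : 0 ≤ O := outflux_nonneg hW A0 A1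
  have hN00 : 0 ≤ N0 := Finset.sum_nonneg fun w _ => mul_nonneg (he w) (sq_nonneg _)
  have hS10 : 0 ≤ S1 := Finset.sum_nonneg fun w _ => mul_nonneg (he w) (sq_nonneg _)
  have hNN : 0 ≤ N := Finset.sum_nonneg fun w _ => mul_nonneg (he w) (sq_nonneg _)
  have hs0n : ∑ w, (-(W w).im) * ‖s0 w‖ ^ 2 = N0 := by
    rw [← Finset.sum_filter_add_sum_filter_not Finset.univ (fun u => u ∈ A0)]
    have h3 : ∑ u ∈ Finset.univ.filter (fun u => ¬ u ∈ A0), (-(W u).im) * ‖s0 u‖ ^ 2 = 0 := by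
      refine Finset.sum_eq_zero fun u hu => ?_
      simp only [hs0, if_neg (Finset.mem_filter.1 hu).2, norm_zero]
      ring
    rw [h3, add_zero, hN0]
    refine Finset.sum_congr (by ext u; simp) fun u hu => ?_
    have : u ∈ A0 := by simpa using hu
    simp only [hs0, if_pos this]
  -- the inner product
  have h1 : N0 ≤ ∑ w, (-(W w).im) * (‖p w‖ * ‖q w‖) := by
    have h2 := Uw_inner hA hW s0 s
    have h3 : ∑ w, ((-(W w).im : ℝ) : ℂ) * (conj (s0 w) * s w) = ((N0 : ℝ) : ℂ) := by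
      rw [← hs0n, Complex.ofReal_sum]
      refine Finset.sum_congr rfl fun w _ => ?_
      by_cases hw : w ∈ A0
      · simp only [hs0, if_pos hw]
        rw [Complex.ofReal_mul, ← Complex.normSq_eq_norm_sq, Complex.normSq_eq_conj_mul_self]
      · simp only [hs0, if_neg hw]
        simp
    rw [h3] at h2
    have h4 : N0 = ‖((N0 : ℝ) : ℂ)‖ := by rw [Complex.norm_real, Real.norm_of_nonneg hN00]
    rw [h4, ← h2]
    refine (norm_sum_le _ _).trans (Finset.sum_le_sum fun w _ => ?_)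
    rw [norm_mul, norm_mul, RCLike.norm_conj, Complex.norm_real, Real.norm_of_nonneg (he w)]
  have hsplit : ∑ w, (-(W w).im) * (‖p w‖ * ‖q w‖) =
      ∑ w ∈ A1, (-(W w).im) * (‖p w‖ * ‖q w‖) + ∑ w ∈ A1ᶜ, (-(W w).im) * (‖p w‖ * ‖q w‖) :=
    (Finset.sum_add_sum_compl A1 _).symm
  -- first part
  have hp1 : ∑ w ∈ A1, (-(W w).im) * ‖p w‖ ^ 2 ≤ N0 := by
    rw [← hs0n, ← Uw_norm hA hW s0]
    exact Finset.sum_le_sum_of_subset_of_nonneg (Finset.subset_univ _)
      fun w _ _ => mul_nonneg (he w) (sq_nonneg _)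
  have hq2 : ∑ w ∈ A1ᶜ, (-(W w).im) * ‖q w‖ ^ 2 ≤ N := by
    rw [hN, ← Uw_norm hA hW s]
    exact Finset.sum_le_sum_of_subset_of_nonneg (Finset.subset_univ _)
      fun w _ _ => mul_nonneg (he w) (sq_nonneg _)
  have h5 : ∑ w ∈ A1, (-(W w).im) * (‖p w‖ * ‖q w‖) ≤ Real.sqrt N0 * Real.sqrt S1 := by
    rw [← Real.sqrt_mul hN00]
    refine Real.le_sqrt_of_sq_le ?_
    refine (cs_w A1 fun u _ => he u).trans ?_
    exact mul_le_mul_of_nonneg_right hp1 hS10
  have h6 : ∑ w ∈ A1ᶜ, (-(W w).im) * (‖p w‖ * ‖q w‖) ≤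
      Real.sqrt N0 * (2 * Real.sqrt O * Real.sqrt N) := by
    have h7 : ∑ w ∈ A1ᶜ, (-(W w).im) * (‖p w‖ * ‖q w‖) ≤ Real.sqrt ((4 * O * N0) * N) := by
      refine Real.le_sqrt_of_sq_le ?_
      refine (cs_w A1ᶜ fun u _ => he u).trans ?_
      exact mul_le_mul (off_le hA hW h01 s) hq2
        (Finset.sum_nonneg fun w _ => mul_nonneg (he w) (sq_nonneg _)) (by positivity)
    refine h7.trans (le_of_eq ?_)
    have h8 : (4 * O * N0) * N = N0 * ((2 * 2) * (O * N)) := by ring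
    rw [h8, Real.sqrt_mul hN00, Real.sqrt_mul (by norm_num), Real.sqrt_mul hO0,
      Real.sqrt_mul_self (by norm_num)]
    ring
  have h9 : N0 ≤ Real.sqrt N0 * (Real.sqrt S1 + 2 * Real.sqrt O * Real.sqrt N) := by
    rw [hsplit] at h1
    linarith
  by_cases hz : N0 = 0
  · rw [hz, Real.sqrt_zero]
    positivity
  · have hpos : 0 < Real.sqrt N0 := Real.sqrt_pos.2 (lt_of_le_of_ne hN00 (Ne.symm hz))
    have h10 : Real.sqrt N0 * Real.sqrt N0 ≤
        Real.sqrt N0 * (Real.sqrt S1 + 2 * Real.sqrt O * Real.sqrt N) := by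
      rw [Real.mul_self_sqrt hN00]
      exact h9
    exact le_of_mul_le_mul_left h10 hpos

theorem Uw_Ym (hA : A.IsSymm) (hW : ∀ x, (W x).im < 0) (y x : ι) :
    ‖(Uw A W).mulVec (fun u => Ym A W a u x) y‖ ^ 2 = 4 * ‖Tm A W a y x‖ ^ 2 := by
  rw [Tm_eq_Uw hA hW, norm_mul]
  have : ‖(I / 2 : ℂ)‖ = 1 / 2 := by simp
  rw [this]
  ring

/-- **KEY STEP**, one row `x`, square-root form. -/
theorem key_row_sqrt (hA : A.IsSymm) (hW : ∀ x, (W x).im < 0) (x : ι) {A0 A1 : Finset ι}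
    (h01 : A0 ⊆ A1) :
    Real.sqrt (∑ w ∈ A0, (-(W w).im) * ‖Ym A W a w x‖ ^ 2) ≤
      2 * Real.sqrt (∑ y ∈ A1, (-(W y).im) * ‖Tm A W a y x‖ ^ 2) +
      2 * Real.sqrt (outflux A W A0 A1) * Real.sqrt (∑ y, (-(W y).im) * ‖Ym A W a y x‖ ^ 2) := by
  have h := key_vec hA hW h01 (fun u => Ym A W a u x)
  have h1 : ∑ y ∈ A1, (-(W y).im) * ‖(Uw A W).mulVec (fun u => Ym A W a u x) y‖ ^ 2 =
      (2 * 2) * ∑ y ∈ A1, (-(W y).im) * ‖Tm A W a y x‖ ^ 2 := by
    rw [Finset.mul_sum]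
    refine Finset.sum_congr rfl fun y _ => ?_
    rw [Uw_Ym hA hW]
    ring
  rw [h1, Real.sqrt_mul (by norm_num), Real.sqrt_mul_self (by norm_num)] at h
  exact h

/-- **KEY STEP**, one row `x`. -/
theorem key_row (hA : A.IsSymm) (hW : ∀ x, (W x).im < 0) (x : ι) {A0 A1 : Finset ι}
    (h01 : A0 ⊆ A1) :
    ∑ w ∈ A0, (-(W w).im) * ‖Ym A W a w x‖ ^ 2 ≤
      8 * ∑ y ∈ A1, (-(W y).im) * ‖Tm A W a y x‖ ^ 2 +
      8 * outflux A W A0 A1 * ∑ y, (-(W y).im) * ‖Ym A W a y x‖ ^ 2 := by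
  have h := key_row_sqrt (a := a) hA hW x h01
  have he : ∀ w, 0 ≤ -(W w).im := fun w => by linarith [hW w]
  have hn : ∀ (S : Finset ι) (p : ι → ℂ), 0 ≤ ∑ w ∈ S, (-(W w).im) * ‖p w‖ ^ 2 := fun S p =>
    Finset.sum_nonneg fun w _ => mul_nonneg (he w) (sq_nonneg _)
  have h0 := hn A0 fun w => Ym A W a w x
  have h1 := hn A1 fun w => Tm A W a w x
  have h2 := hn Finset.univ fun w => Ym A W a w x
  have h3 := outflux_nonneg (A := A) hW A0 A1
  set N0 := ∑ w ∈ A0, (-(W w).im) * ‖Ym A W a w x‖ ^ 2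
  set S1 := ∑ y ∈ A1, (-(W y).im) * ‖Tm A W a y x‖ ^ 2
  set N := ∑ y, (-(W y).im) * ‖Ym A W a y x‖ ^ 2
  set O := outflux A W A0 A1
  have h4 : N0 = Real.sqrt N0 ^ 2 := (Real.sq_sqrt h0).symm
  have h5 : S1 = Real.sqrt S1 ^ 2 := (Real.sq_sqrt h1).symm
  have h6 : N = Real.sqrt N ^ 2 := (Real.sq_sqrt h2).symm
  have h7 : O = Real.sqrt O ^ 2 := (Real.sq_sqrt h3).symm
  have h8 : Real.sqrt N0 ^ 2 ≤ (2 * Real.sqrt S1 + 2 * Real.sqrt O * Real.sqrt N) ^ 2 :=
    pow_le_pow_left₀ (Real.sqrt_nonneg _) h 2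
  rw [h4, h5, h6, h7]
  nlinarith [sq_nonneg (Real.sqrt S1 - Real.sqrt O * Real.sqrt N)]

/-- `N(w,x) = ∑_k (F_k w - F_k x)²` -/
noncomputable def Nsq {κ : Type*} [Fintype κ] (F : κ → ι → ℝ) (w x : ι) : ℝ :=
  ∑ k, (F k w - F k x) ^ 2

theorem norm_Ym_sq (w x : ι) : ‖Ym A W a w x‖ ^ 2 = (a w - a x) ^ 2 * KK A W w x := by
  rw [Ym, norm_mul, mul_pow, KK]
  congr 1
  rw [← Complex.ofReal_sub, Complex.norm_real, Real.norm_eq_abs, sq_abs]

theorem sum_Ym {κ : Type*} [Fintype κ] (F : κ → ι → ℝ) (S : Finset ι) (x : ι) :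
    ∑ k, (-(W x).im) * ∑ w ∈ S, (-(W w).im) * ‖Ym A W (F k) w x‖ ^ 2 =
      ∑ w ∈ S, Qf A W w x * Nsq F w x := by
  rw [← Finset.mul_sum, Finset.sum_comm, Finset.mul_sum]
  refine Finset.sum_congr rfl fun w _ => ?_
  rw [Nsq, Finset.mul_sum, Finset.mul_sum]
  refine Finset.sum_congr rfl fun k _ => ?_
  rw [norm_Ym_sq, Qf]
  ring

/-- **KEY STEP** for a family of test functions:
`∑_{A₀} Q_wx N(w,x) ≤ 8 ∑_k ∑_{A₁} e_y e_x |T^k_yx|² + 8 O ∑_y Q_yx N(y,x)`. -/
theorem key_fam (hA : A.IsSymm) (hW : ∀ x, (W x).im < 0) {κ : Type*} [Fintype κ] (F : κ → ι → ℝ)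
    (x : ι) {A0 A1 : Finset ι} (h01 : A0 ⊆ A1) :
    ∑ w ∈ A0, Qf A W w x * Nsq F w x ≤
      8 * ∑ k, ∑ y ∈ A1, (-(W y).im) * (-(W x).im) * ‖Tm A W (F k) y x‖ ^ 2 +
      8 * outflux A W A0 A1 * ∑ y, Qf A W y x * Nsq F y x := by
  have he : 0 ≤ -(W x).im := by linarith [hW x]
  rw [← sum_Ym, ← sum_Ym]
  have h : ∀ k ∈ Finset.univ, (-(W x).im) * ∑ w ∈ A0, (-(W w).im) * ‖Ym A W (F k) w x‖ ^ 2 ≤
      8 * ∑ y ∈ A1, (-(W y).im) * (-(W x).im) * ‖Tm A W (F k) y x‖ ^ 2 +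
      8 * outflux A W A0 A1 * ((-(W x).im) * ∑ y, (-(W y).im) * ‖Ym A W (F k) y x‖ ^ 2) := by
    intro k _
    refine (mul_le_mul_of_nonneg_left (key_row (a := F k) hA hW x h01) he).trans (le_of_eq ?_)
    have h1 : ∑ y ∈ A1, (-(W y).im) * (-(W x).im) * ‖Tm A W (F k) y x‖ ^ 2 =
        (-(W x).im) * ∑ y ∈ A1, (-(W y).im) * ‖Tm A W (F k) y x‖ ^ 2 := by
      rw [Finset.mul_sum]
      exact Finset.sum_congr rfl fun y _ => by ring
    rw [h1]
    ring
  refine (Finset.sum_le_sum h).trans (le_of_eq ?_)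
  rw [Finset.sum_add_distrib, ← Finset.mul_sum, ← Finset.mul_sum]

/-! ### masses, weak partners, the outflux -/

/-- `κ_wy ≤ c < 1 ⟹ Q_wy ≤ c/(1-c) π_w π_y` -/
theorem Qf_le_of_kap (hA : A.IsSymm) (hW : ∀ x, (W x).im < 0) {w y : ι} {c : ℝ}
    (hc : kap A W w y ≤ c) (hc1 : c < 1) :
    Qf A W w y ≤ c / (1 - c) * (pif A W w * pif A W y) := by
  have hw := mm_pos hA hW w
  have hy := mm_pos hA hW y
  have hK : 0 ≤ KK A W w y := KK_nonneg w y
  have hd := kap_den_pos hA hW w y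
  have h1 : KK A W w y ≤ c * (mm A W w * mm A W y + KK A W w y) := by
    rw [kap, div_le_iff₀ hd] at hc
    exact hc
  have h2 : KK A W w y ≤ c / (1 - c) * (mm A W w * mm A W y) := by
    rw [div_mul_eq_mul_div, le_div_iff₀ (by linarith)]
    nlinarith
  have he : 0 ≤ (-(W w).im) * (-(W y).im) := mul_nonneg (by linarith [hW w]) (by linarith [hW y])
  calc Qf A W w y = ((-(W w).im) * (-(W y).im)) * KK A W w y := by rw [Qf]
    _ ≤ ((-(W w).im) * (-(W y).im)) * (c / (1 - c) * (mm A W w * mm A W y)) :=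
        mul_le_mul_of_nonneg_left h2 he
    _ = c / (1 - c) * (pif A W w * pif A W y) := by rw [pif, pif]; ring

/-- `ε₀ ≤ κ_xw ⟹ ε₀ π_w ≤ P_x(w)` -/
theorem pif_le_PP (hA : A.IsSymm) (hW : ∀ x, (W x).im < 0) {x w : ι} {c : ℝ} (hc0 : 0 ≤ c)
    (hc : c ≤ kap A W x w) : c * pif A W w ≤ PP A W x w := by
  have hw := mm_pos hA hW w
  have hx := mm_pos hA hW x
  have hK : 0 ≤ KK A W x w := KK_nonneg x w
  have hd := kap_den_pos hA hW x w
  have h1 : c * (mm A W x * mm A W w + KK A W x w) ≤ KK A W x w := by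
    rw [kap, le_div_iff₀ hd] at hc
    exact hc
  have h2 : c * mm A W w ≤ KK A W x w / mm A W x := by
    rw [le_div_iff₀ hx]
    nlinarith [mul_nonneg hc0 hK]
  have he : 0 ≤ -(W w).im := by linarith [hW w]
  calc c * pif A W w = (-(W w).im) * (c * mm A W w) := by rw [pif]; ring
    _ ≤ (-(W w).im) * (KK A W x w / mm A W x) := mul_le_mul_of_nonneg_left h2 he
    _ = PP A W x w := by rw [PP]; ring

/-- strong partners of `x` have mass at most `1/ε₀` -/
theorem mass_le (hA : A.IsSymm) (hW : ∀ x, (W x).im < 0) {x : ι} {c : ℝ} (hc0 : 0 < c)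
    {S : Finset ι} (hS : ∀ w ∈ S, c ≤ kap A W x w) : ∑ w ∈ S, pif A W w ≤ 1 / c := by
  rw [le_div_iff₀ hc0, Finset.sum_mul]
  calc ∑ w ∈ S, pif A W w * c ≤ ∑ w ∈ S, PP A W x w :=
        Finset.sum_le_sum fun w hw => by
          rw [mul_comm]; exact pif_le_PP hA hW hc0.le (hS w hw)
    _ ≤ ∑ w, PP A W x w := Finset.sum_le_sum_of_subset_of_nonneg (Finset.subset_univ _)
        fun w _ _ => PP_nonneg hA hW x w
    _ = 1 := PP_sum hA hW x

/-- `λ^S_xy = ∑_{w ∈ S, κ_wy ≥ ε₂} π_w κ_xw κ_wy` -/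
noncomputable def lamR (A : Matrix ι ι ℝ) (W : ι → ℂ) (S : Finset ι) (e2 : ℝ) (x y : ι) : ℝ :=
  ∑ w ∈ S, if e2 ≤ kap A W w y then pif A W w * (kap A W x w * kap A W w y) else 0

theorem lamR_nonneg (hA : A.IsSymm) (hW : ∀ x, (W x).im < 0) (S : Finset ι) (e2 : ℝ) (x y : ι) :
    0 ≤ lamR A W S e2 x y := by
  refine Finset.sum_nonneg fun w _ => ?_
  split_ifs
  · exact mul_nonneg (pif_pos hA hW w).le (mul_nonneg (kap_nonneg hA hW x w) (kap_nonneg hA hW w y))
  · exact le_rfl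

/-- one site `w`, one site `y`: the three ways of being off `A₁` -/
theorem Qf_split (hA : A.IsSymm) (hW : ∀ x, (W x).im < 0) {x w y : ι} {e0 e2 e3 : ℝ}
    (he0 : 0 < e0) (he2 : 0 < e2) (he21 : e2 < 1) (he3 : e3 < 1) (hw : e0 ≤ kap A W x w) :
    Qf A W w y ≤ (if e3 < kap A W w y then Qf A W w y else 0) +
      e2 / (1 - e2) * (pif A W w * pif A W y) +
      (pif A W y / ((1 - e3) * e0)) *
        (if e2 ≤ kap A W w y then pif A W w * (kap A W x w * kap A W w y) else 0) := by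
  have hpw := pif_pos hA hW w
  have hpy := pif_pos hA hW y
  have hk := kap_nonneg hA hW w y
  have hkx := kap_nonneg hA hW x w
  have h13 : 0 < 1 - e3 := by linarith
  have h12 : 0 < 1 - e2 := by linarith
  have hQ := Qf_nonneg (A := A) hW w y
  by_cases h3 : e3 < kap A W w y
  · rw [if_pos h3]
    have : 0 ≤ (pif A W y / ((1 - e3) * e0)) *
        (if e2 ≤ kap A W w y then pif A W w * (kap A W x w * kap A W w y) else 0) := by
      refine mul_nonneg (by positivity) ?_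
      split_ifs <;> positivity
    have h5 : 0 ≤ e2 / (1 - e2) * (pif A W w * pif A W y) := by positivity
    linarith
  · rw [if_neg h3]
    push Not at h3
    by_cases h2 : e2 ≤ kap A W w y
    · rw [if_pos h2]
      have h5 : 0 ≤ e2 / (1 - e2) * (pif A W w * pif A W y) := by positivity
      have h6 := Qf_le_of_kap hA hW (le_refl (kap A W w y)) (lt_of_le_of_lt h3 he3)
      have h7 : kap A W w y / (1 - kap A W w y) ≤ kap A W w y / (1 - e3) :=
        div_le_div_of_nonneg_left hk h13 (by linarith)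
      have h8 : kap A W w y / (1 - e3) * (pif A W w * pif A W y) ≤
          (pif A W y / ((1 - e3) * e0)) * (pif A W w * (kap A W x w * kap A W w y)) := by
        have h9 : (pif A W y / ((1 - e3) * e0)) * (pif A W w * (kap A W x w * kap A W w y)) =
            kap A W w y / (1 - e3) * (pif A W w * pif A W y) * (kap A W x w / e0) := by
          field_simp
        rw [h9]
        have h10 : 1 ≤ kap A W x w / e0 := by rw [le_div_iff₀ he0]; linarith
        have h11 : 0 ≤ kap A W w y / (1 - e3) * (pif A W w * pif A W y) := by positivity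
        nlinarith
      have h12' := mul_le_mul_of_nonneg_right h7 (mul_pos hpw hpy).le
      linarith
    · rw [if_neg h2]
      push Not at h2
      have h6 := Qf_le_of_kap hA hW h2.le he21
      linarith

/-- **the outflux**: `A₀` strong partners of `x`; `H` any finset with `λ^{A₀}_xy ≤ λ'` on `H \ A₁`. -/
theorem outflux_le (hA : A.IsSymm) (hW : ∀ x, (W x).im < 0) (x : ι) {A0 A1 H : Finset ι}
    {e0 e2 e3 l' : ℝ} (he0 : 0 < e0) (he2 : 0 < e2) (he21 : e2 < 1) (he3 : e3 < 1)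
    (hl0 : 0 ≤ l') (h0 : ∀ w ∈ A0, e0 ≤ kap A W x w)
    (h1 : ∀ y ∈ H, y ∉ A1 → lamR A W A0 e2 x y ≤ l') :
    outflux A W A0 A1 ≤
      (1 / e0) * ∑ w ∈ A0, PP A W x w * (∑ y ∈ Hᶜ, PP A W w y +
        ∑ y ∈ H, if e3 < kap A W w y then PP A W w y else 0) +
      (e2 / (1 - e2) + l' / (1 - e3)) / e0 * ∑ y ∈ H, pif A W y := by
  classical
  have hpi := fun w => pif_pos hA hW w
  have h13 : 0 < 1 - e3 := by linarith
  have h12 : 0 < 1 - e2 := by linarith
  -- split the complement of `A₁`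
  have hs : ∀ w ∈ A0, ∑ y ∈ A1ᶜ, Qf A W w y ≤ ∑ y ∈ Hᶜ, Qf A W w y +
      ∑ y ∈ H.filter (fun y => y ∉ A1), Qf A W w y := by
    intro w _
    rw [← Finset.sum_filter_add_sum_filter_not (A1ᶜ) (fun y => y ∈ H), add_comm]
    refine add_le_add ?_ ?_
    · refine Finset.sum_le_sum_of_subset_of_nonneg (fun y hy => ?_)
        fun y _ _ => Qf_nonneg hW w y
      simpa using (Finset.mem_filter.1 hy).2
    · refine Finset.sum_le_sum_of_subset_of_nonneg (fun y hy => ?_)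
        fun y _ _ => Qf_nonneg hW w y
      have hy' := Finset.mem_filter.1 hy
      exact Finset.mem_filter.2 ⟨hy'.2, by simpa using hy'.1⟩
  have hs2 : ∀ w ∈ A0, ∑ y ∈ H.filter (fun y => y ∉ A1), Qf A W w y ≤
      ∑ y ∈ H.filter (fun y => y ∉ A1), ((if e3 < kap A W w y then Qf A W w y else 0) +
      e2 / (1 - e2) * (pif A W w * pif A W y) +
      (pif A W y / ((1 - e3) * e0)) *
        (if e2 ≤ kap A W w y then pif A W w * (kap A W x w * kap A W w y) else 0)) := by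
    intro w hw
    exact Finset.sum_le_sum fun y _ => Qf_split hA hW he0 he2 he21 he3 (h0 w hw)
  -- first part: `Hᶜ`
  have hb1 : ∀ w ∈ A0, ∀ S : Finset ι, ∀ g : ι → Prop, ∀ _ : DecidablePred g,
      ∑ y ∈ S, (if g y then Qf A W w y else 0) ≤
      (1 / e0) * (PP A W x w * ∑ y ∈ S, if g y then PP A W w y else 0) := by
    intro w hw S g _
    have h2 : ∑ y ∈ S, (if g y then Qf A W w y else 0) =
        pif A W w * ∑ y ∈ S, if g y then PP A W w y else 0 := by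
      rw [Finset.mul_sum]
      refine Finset.sum_congr rfl fun y _ => ?_
      rw [Qf_eq hA hW]
      split_ifs <;> simp
    rw [h2, ← mul_assoc]
    refine mul_le_mul_of_nonneg_right ?_ (Finset.sum_nonneg fun y _ => ?_)
    · rw [one_div, ← div_eq_inv_mul, le_div_iff₀ he0, mul_comm]
      exact pif_le_PP hA hW he0.le (h0 w hw)
    · split_ifs
      · exact PP_nonneg hA hW w y
      · exact le_rfl
  have hmass := mass_le hA hW he0 h0
  have hn0 : 0 ≤ ∑ y ∈ H, pif A W y := Finset.sum_nonneg fun y _ => (hpi y).le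
  calc outflux A W A0 A1
      = ∑ w ∈ A0, ∑ y ∈ A1ᶜ, Qf A W w y := rfl
    _ ≤ ∑ w ∈ A0, (∑ y ∈ Hᶜ, Qf A W w y +
          ∑ y ∈ H.filter (fun y => y ∉ A1), Qf A W w y) := Finset.sum_le_sum hs
    _ ≤ ∑ w ∈ A0, (∑ y ∈ Hᶜ, Qf A W w y +
          ∑ y ∈ H.filter (fun y => y ∉ A1), ((if e3 < kap A W w y then Qf A W w y else 0) +
      e2 / (1 - e2) * (pif A W w * pif A W y) +
      (pif A W y / ((1 - e3) * e0)) *
        (if e2 ≤ kap A W w y then pif A W w * (kap A W x w * kap A W w y) else 0))) :=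
        Finset.sum_le_sum fun w hw => add_le_add le_rfl (hs2 w hw)
    _ = (∑ w ∈ A0, (∑ y ∈ Hᶜ, Qf A W w y +
          ∑ y ∈ H.filter (fun y => y ∉ A1), (if e3 < kap A W w y then Qf A W w y else 0))) +
        e2 / (1 - e2) * ((∑ w ∈ A0, pif A W w) * ∑ y ∈ H.filter (fun y => y ∉ A1), pif A W y) +
        ∑ y ∈ H.filter (fun y => y ∉ A1),
          (pif A W y / ((1 - e3) * e0)) * lamR A W A0 e2 x y := by
        have e1 : ∑ y ∈ H.filter (fun y => y ∉ A1),
            (pif A W y / ((1 - e3) * e0)) * lamR A W A0 e2 x y =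
            ∑ w ∈ A0, ∑ y ∈ H.filter (fun y => y ∉ A1), (pif A W y / ((1 - e3) * e0)) *
              (if e2 ≤ kap A W w y then pif A W w * (kap A W x w * kap A W w y) else 0) := by
          rw [Finset.sum_comm]
          refine Finset.sum_congr rfl fun y _ => ?_
          rw [lamR, Finset.mul_sum]
        have e2' : e2 / (1 - e2) * ((∑ w ∈ A0, pif A W w) *
            ∑ y ∈ H.filter (fun y => y ∉ A1), pif A W y) =
            ∑ w ∈ A0, ∑ y ∈ H.filter (fun y => y ∉ A1),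
              e2 / (1 - e2) * (pif A W w * pif A W y) := by
          rw [Finset.sum_mul_sum, Finset.mul_sum]
          refine Finset.sum_congr rfl fun w _ => ?_
          rw [Finset.mul_sum]
        rw [e1, e2', ← Finset.sum_add_distrib, ← Finset.sum_add_distrib]
        refine Finset.sum_congr rfl fun w _ => ?_
        rw [Finset.sum_add_distrib, Finset.sum_add_distrib]
        ring
    _ ≤ (1 / e0) * ∑ w ∈ A0, PP A W x w * (∑ y ∈ Hᶜ, PP A W w y +
          ∑ y ∈ H, if e3 < kap A W w y then PP A W w y else 0) +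
        e2 / (1 - e2) * ((1 / e0) * ∑ y ∈ H, pif A W y) +
        ∑ y ∈ H, (pif A W y / ((1 - e3) * e0)) * l' := by
        have hfil : ∑ y ∈ H.filter (fun y => y ∉ A1), pif A W y ≤ ∑ y ∈ H, pif A W y :=
          Finset.sum_le_sum_of_subset_of_nonneg (Finset.filter_subset _ _)
            fun y _ _ => (hpi y).le
        refine add_le_add (add_le_add ?_ ?_) ?_
        · rw [Finset.mul_sum]
          refine Finset.sum_le_sum fun w hw => ?_
          have t1 := hb1 w hw Hᶜ (fun _ => True) (fun _ => instDecidableTrue)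
          simp only [if_true] at t1
          have t2 := hb1 w hw H (fun y => e3 < kap A W w y) (fun y => Classical.dec _)
          have t3 : ∑ y ∈ H.filter (fun y => y ∉ A1), (if e3 < kap A W w y then Qf A W w y else 0) ≤
              ∑ y ∈ H, (if e3 < kap A W w y then Qf A W w y else 0) := by
            refine Finset.sum_le_sum_of_subset_of_nonneg (Finset.filter_subset _ _)
              fun y _ _ => ?_
            split_ifs
            · exact Qf_nonneg hW w y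
            · exact le_rfl
          have t4 : (1 / e0) * (PP A W x w * (∑ y ∈ Hᶜ, PP A W w y +
              ∑ y ∈ H, if e3 < kap A W w y then PP A W w y else 0)) =
              (1 / e0) * (PP A W x w * ∑ y ∈ Hᶜ, PP A W w y) +
              (1 / e0) * (PP A W x w * ∑ y ∈ H, if e3 < kap A W w y then PP A W w y else 0) := by
            ring
          rw [t4]
          refine add_le_add t1 (t3.trans ?_)
          convert t2 using 3
        · refine mul_le_mul_of_nonneg_left ?_ (by positivity)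
          exact mul_le_mul hmass hfil (Finset.sum_nonneg fun y _ => (hpi y).le) (by positivity)
        · have hl' : ∀ y ∈ H.filter (fun y => y ∉ A1),
              (pif A W y / ((1 - e3) * e0)) * lamR A W A0 e2 x y ≤
              (pif A W y / ((1 - e3) * e0)) * l' := by
            intro y hy
            have hy' := Finset.mem_filter.1 hy
            exact mul_le_mul_of_nonneg_left (h1 y hy'.1 hy'.2) (by have := hpi y; positivity)
          refine (Finset.sum_le_sum hl').trans ?_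
          exact Finset.sum_le_sum_of_subset_of_nonneg (Finset.filter_subset _ _)
            fun y _ _ => by have := hpi y; positivity
    _ = _ := by
        rw [← Finset.sum_mul]
        have : ∑ y ∈ H, pif A W y / ((1 - e3) * e0) = (∑ y ∈ H, pif A W y) / ((1 - e3) * e0) := by
          rw [Finset.sum_div]
        rw [this]
        field_simp
        ring

end P365T2.H486
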