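import Vale.Agent.P365.T2.H486.Arc
import Vale.Agent.P365.T2.H486.Key
import Vale.Agent.P365.T2.StrongB968
import Vale.Agent.P365.T2.H862.GoodL

/-!
# P365-T2, row X-CLOSE: very strong pairs.
-/

set_option linter.all false

namespace P365T2.H486

open MeasureTheory Set P365L P365L.Stat P365L.T2.X968 P365T1
open Complex hiding eta
open scoped ENNReal

variable {ι : Type*} [Fintype ι] [DecidableEq ι]
variable {A : Matrix ι ι ℝ} {W : ι → ℂ} {a : ι → ℝ}

theorem mul_eta_im (b : ℂ) (x : ℝ) : (b * eta x).im = (b.re + b.im * x) / (1 + x ^ 2) := by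
  have h1 : (((x : ℂ) - I)) ≠ 0 := sub_I_ne x
  have hxx := one_add_sq_pos x
  have h2 : eta x = ((x : ℂ) + I) / ((1 + x ^ 2 : ℝ) : ℂ) := by
    rw [eta, div_eq_div_iff h1 (Complex.ofReal_ne_zero.2 hxx.ne')]
    push_cast
    linear_combination Complex.I_sq
  rw [h2, mul_div_assoc', Complex.div_ofReal_im, Complex.mul_im]
  simp

/-- the coefficient of the circle of `m_y` under the kicks at `w` -/
noncomputable def bc (A : Matrix ι ι ℝ) (W : ι → ℂ) (w y : ι) : ℂ :=
  kq' (Gr A W w w) * Gr A W y w ^ 2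

/-- the constant term -/
noncomputable def cc (A : Matrix ι ι ℝ) (W : ι → ℂ) (w y : ι) : ℝ :=
  mm A W y - ((Gr A W w w)⁻¹ * Gr A W y w ^ 2).im

theorem norm_bc (hA : A.IsSymm) (hW : ∀ x, (W x).im < 0) (w y : ι) :
    ‖bc A W w y‖ = KK A W w y / mm A W w := by
  rw [bc, norm_mul, norm_kq' (Gr_self_im_pos hA hW w), norm_pow, KK_symm hA w y, KK]
  rw [one_div, inv_mul_eq_div]
  rfl

/-- `m_y` on the circle -/
theorem mm_kick (hA : A.IsSymm) (hW : ∀ x, (W x).im < 0) (w y : ι) (x : ℝ) :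
    mm A (kick A W w x) y = cc A W w y + ((bc A W w y).re + (bc A W w y).im * x) / (1 + x ^ 2) := by
  rw [kick, mm_upd_real hA hW w _ y, th_tw (Gr_self_im_pos hA hW w), ← mul_eta_im, cc, bc, sub_mul,
    Complex.sub_im]
  have : kq' (Gr A W w w) * eta x * Gr A W y w ^ 2 = kq' (Gr A W w w) * Gr A W y w ^ 2 * eta x := by
    ring
  rw [this]
  ring

/-- lower bound of `m_y` on the circle -/
theorem mm_kick_ge (hA : A.IsSymm) (hW : ∀ x, (W x).im < 0) (w y : ι) (x : ℝ) :
    (‖bc A W w y‖ - (bc A W w y).re) / 2 ≤ cc A W w y := by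
  set b := bc A W w y with hb
  set c := cc A W w y with hc
  have hpos : ∀ x : ℝ, 0 ≤ c * (x * x) + b.im * x + (c + b.re) := by
    intro x
    have h1 := mm_pos hA (kick_neg (A := A) hW w x) y
    rw [mm_kick hA hW, ← hb, ← hc] at h1
    have hxx := one_add_sq_pos x
    have h2 : (c + (b.re + b.im * x) / (1 + x ^ 2)) * (1 + x ^ 2) =
        c * (x * x) + b.im * x + (c + b.re) := by
      field_simp
      ring
    rw [← h2]
    positivity
  have hd := discrim_le_zero hpos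
  rw [discrim] at hd
  have h0 : 0 ≤ c + b.re := by simpa using hpos 0
  have hc0 : 0 ≤ c := by
    by_contra hneg
    push Not at hneg
    have h3 : 4 * c * (c + b.re) ≤ 0 := by nlinarith
    have h4 : b.im ^ 2 ≤ 0 := by linarith
    have h5 : b.im = 0 := by
      have : b.im ^ 2 = 0 := le_antisymm h4 (sq_nonneg _)
      exact pow_eq_zero_iff (two_ne_zero) |>.1 this
    obtain ⟨x, hx⟩ : ∃ x : ℝ, c * (x * x) + (c + b.re) < 0 := by
      refine ⟨(c + b.re) / (-c) + 1, ?_⟩
      have h6 : 0 ≤ (c + b.re) / (-c) := div_nonneg h0 (by linarith)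
      set r := (c + b.re) / (-c) with hr
      have hcn : c ≠ 0 := hneg.ne
      have h7 : c + b.re = r * (-c) := by
        rw [hr, div_mul_cancel₀ _ (neg_ne_zero.2 hcn)]
      rw [h7]
      nlinarith
    have h8 := hpos x
    rw [h5] at h8
    linarith
  have hn : ‖b‖ ^ 2 = b.re ^ 2 + b.im ^ 2 := by
    rw [← Complex.normSq_eq_norm_sq, Complex.normSq_apply]
    ring
  have h1 : ‖b‖ ^ 2 ≤ (2 * c + b.re) ^ 2 := by
    rw [hn]
    nlinarith
  have h2 : ‖b‖ ≤ 2 * c + b.re := abs_le_of_sq_le_sq' h1 (by linarith) |>.2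
  linarith

theorem PP_kick (hA : A.IsSymm) (hW : ∀ x, (W x).im < 0) (w y : ι) (t : ℝ) :
    KK A (Function.update W w (W w + (t : ℂ))) w y /
      mm A (Function.update W w (W w + (t : ℂ))) w = KK A W w y / mm A W w := by
  have hne := one_add_ne_real hA hW w t
  have hs0 : 0 < ‖1 + (t : ℂ) * Gr A W w w‖ ^ 2 := pow_pos (norm_pos_iff.2 hne) 2
  have e1 := KK_upd_col hA hW w t y
  have e2 := mm_upd_self hA hW w t
  have hWn : ∀ x, (Function.update W w (W w + (t : ℂ)) x).im < 0 := upd_neg_real hW w t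
  have m1 := mm_pos hA hWn w
  have m2 := mm_pos hA hW w
  rw [KK_symm hA w y, KK_symm hA w y, ← e1, ← e2]
  field_simp

/-- **the arc of very strong coupling**: `κ_wy > 1 - τ` on a set of kicks of measure
`≤ 2 π √(τ/(1-τ))`. -/
theorem close_arc (hA : A.IsSymm) (hW : ∀ x, (W x).im < 0) (w y : ι) {τ : ℝ} (h0 : 0 < τ)
    (h1 : τ < 1) :
    ∫⁻ x, ({x : ℝ | 1 - τ < kap A (kick A W w x) w y}.indicator (fun _ => (1 : ℝ≥0∞)) x)
        * ENNReal.ofReal (1 / (1 + x ^ 2)) ≤
      ENNReal.ofReal (2 * Real.pi * Real.sqrt (τ / (1 - τ))) := by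
  have h1' : 0 < 1 - τ := by linarith
  set b := bc A W w y with hb
  set c := cc A W w y with hc
  set s := Real.sqrt (τ / (1 - τ)) with hs
  have hs2 : s ^ 2 = τ / (1 - τ) := Real.sq_sqrt (by positivity)
  set φ : ℝ := Real.pi / 2 - b.arg / 2 with hφ
  have ha1 := Complex.neg_pi_lt_arg b
  have ha2 := Complex.arg_le_pi b
  have hφ0 : 0 ≤ φ := by rw [hφ]; linarith
  have hφ1 : φ ≤ Real.pi := by rw [hφ]; linarith [Real.pi_pos]
  refine le_trans (lintegral_mono fun x => ?_) (arc_le hφ0 hφ1 (Real.sqrt_nonneg _))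
  refine mul_le_mul_left ?_ _
  by_cases hx : x ∈ {x : ℝ | 1 - τ < kap A (kick A W w x) w y}
  swap
  · rw [indicator_of_notMem hx]
    exact zero_le
  rw [indicator_of_mem hx, indicator_of_mem]
  have hx' : 1 - τ < kap A (kick A W w x) w y := hx
  show (Real.cos φ * x + Real.sin φ) ^ 2 < s ^ 2 * (1 + x ^ 2)
  have hWk := kick_neg (A := A) hW w x
  have mw := mm_pos hA hWk w
  have my := mm_pos hA hWk y
  have hK := KK_nonneg (A := A) (W := kick A W w x) w y
  have hd := kap_den_pos hA hWk w y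
  have hxx := one_add_sq_pos x
  have hbn : ‖b‖ = KK A (kick A W w x) w y / mm A (kick A W w x) w := by
    rw [hb, norm_bc hA hW, kick, PP_kick hA hW]
  have h2 : mm A (kick A W w x) y < τ / (1 - τ) * ‖b‖ := by
    rw [kap, lt_div_iff₀ hd] at hx'
    rw [hbn, div_mul_div_comm, lt_div_iff₀ (by positivity)]
    nlinarith
  have h3 := mm_kick_ge hA hW w y x
  rw [← hb, ← hc] at h3
  have h4 := mm_kick hA hW w y x
  rw [← hb, ← hc] at h4
  have hτ : 0 < τ / (1 - τ) := by positivity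
  have hb0 : 0 < ‖b‖ := by
    by_contra hcon
    have : ‖b‖ = 0 := le_antisymm (not_lt.1 hcon) (norm_nonneg _)
    rw [this, mul_zero] at h2
    linarith
  -- half angles
  have hcos : Real.cos φ = Real.sin (b.arg / 2) := by
    rw [hφ, Real.cos_pi_div_two_sub]
  have hsin : Real.sin φ = Real.cos (b.arg / 2) := by
    rw [hφ, Real.sin_pi_div_two_sub]
  have hre : b.re = ‖b‖ * (Real.cos (b.arg / 2) ^ 2 - Real.sin (b.arg / 2) ^ 2) := by
    have := Complex.norm_mul_cos_arg b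
    have h5 : b.arg = 2 * (b.arg / 2) := by ring
    rw [h5, Real.cos_two_mul'] at this
    linarith
  have him : b.im = ‖b‖ * (2 * Real.sin (b.arg / 2) * Real.cos (b.arg / 2)) := by
    have := Complex.norm_mul_sin_arg b
    have h5 : b.arg = 2 * (b.arg / 2) := by ring
    rw [h5, Real.sin_two_mul] at this
    linarith
  have hone := Real.sin_sq_add_cos_sq (b.arg / 2)
  set S := Real.sin (b.arg / 2)
  set C := Real.cos (b.arg / 2)
  rw [hcos, hsin, hs2]
  have h6 : ‖b‖ * (S * x + C) ^ 2 ≤ (1 + x ^ 2) * mm A (kick A W w x) y := by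
    rw [h4]
    have h7 : (1 + x ^ 2) * (c + (b.re + b.im * x) / (1 + x ^ 2)) =
        c * (1 + x ^ 2) + b.re + b.im * x := by
      field_simp
      ring
    rw [h7]
    have h8 : (‖b‖ - b.re) / 2 * (1 + x ^ 2) ≤ c * (1 + x ^ 2) :=
      mul_le_mul_of_nonneg_right h3 hxx.le
    have h9 : ‖b‖ * (S * x + C) ^ 2 = (‖b‖ - b.re) / 2 * (1 + x ^ 2) + b.re + b.im * x := by
      rw [hre, him]
      linear_combination (‖b‖ * (1 + x ^ 2) / 2) * hone
    linarith
  have h7 : ‖b‖ * (S * x + C) ^ 2 < ‖b‖ * (τ / (1 - τ) * (1 + x ^ 2)) := by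
    refine h6.trans_lt ?_
    have := mul_lt_mul_of_pos_left h2 hxx
    calc (1 + x ^ 2) * mm A (kick A W w x) y < (1 + x ^ 2) * (τ / (1 - τ) * ‖b‖) := this
      _ = _ := by ring
  exact lt_of_mul_lt_mul_left h7 hb0.le

end P365T2.H486
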