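import Vale.Agent.P365.T2.H486.Up

/-!
# P365-T2, row X-CLOSE: very strong pairs in expectation.

`close_Q`: if the site `w` has an edge law, and `F` does not depend on the coordinate `w`,
`E[1_{pole good_ε} F Σ_y Q_wy 1{κ_wy > 1-τ}] ≤ K E[1_{pole good_ε} F π_w]`,
`K = (32 b/a) 2 π √(τ/(1-τ)) + (192 b λ²/a) ε`.
-/

set_option linter.all false

namespace P365T2.H486

open MeasureTheory Set P365L P365L.Stat P365L.T2.X968 P365T1 P365T2.H862 Vale.Agent.P365.J376
open Complex hiding eta
open scoped ENNReal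

variable {ι : Type*} [Fintype ι] [DecidableEq ι]
variable {A : Matrix ι ι ℝ} {E : ℝ} {e : ι → ℝ}

/-- the pole of the site `w`: `G_ww = 1/(v_w - pol)` -/
noncomputable def pol (A : Matrix ι ι ℝ) (E : ℝ) (e v : ι → ℝ) (w : ι) : ℂ :=
  (v w : ℂ) - (Gr A (WV E e v) w w)⁻¹

theorem pol_im_pos (hA : A.IsSymm) (he : ∀ x, 0 < e x) (v : ι → ℝ) (w : ι) :
    0 < (pol A E e v w).im := by
  have h := bet_pos (Gr_self_im_pos hA (WV_neg (E := E) he v) w)
  rw [pol, Complex.sub_im, Complex.ofReal_im, zero_sub]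
  exact h

theorem pol_upd (hA : A.IsSymm) (he : ∀ x, 0 < e x) (v : ι → ℝ) (w : ι) (s : ℝ) :
    pol A E e (Function.update v w s) w = pol A E e v w := by
  have hW := WV_neg (E := E) he v
  have hg := Gr_self_ne_zero hA hW w
  have h1 := one_add_ne_real hA hW w (s - v w)
  rw [pol, pol, WV_upd, Gr_upd_col hA hW, Function.update_self]
  have h2 : (Gr A (WV E e v) w w / (1 + ((s - v w : ℝ) : ℂ) * Gr A (WV E e v) w w))⁻¹ =
      (Gr A (WV E e v) w w)⁻¹ + ((s - v w : ℝ) : ℂ) := by
    rw [inv_div, add_div, one_div, mul_div_assoc, div_self hg, mul_one]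
  rw [h2]
  push_cast
  ring

theorem mm_line (hA : A.IsSymm) (he : ∀ x, 0 < e x) (v : ι → ℝ) (w : ι) (s : ℝ) :
    mm A (WV E e (Function.update v w s)) w =
      (pol A E e v w).im * (1 / ‖(s : ℂ) - pol A E e v w‖ ^ 2) := by
  have h1 := pol_upd (E := E) hA he v w s
  rw [pol, Function.update_self] at h1
  set p := pol A E e v w with hp
  have h2 : (Gr A (WV E e (Function.update v w s)) w w)⁻¹ = (s : ℂ) - p := by
    rw [← h1]; ring
  have h3 : Gr A (WV E e (Function.update v w s)) w w = ((s : ℂ) - p)⁻¹ := by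
    rw [← h2, inv_inv]
  rw [mm, h3, Complex.inv_im, Complex.sub_im, Complex.ofReal_im, ← Complex.normSq_eq_norm_sq]
  ring

theorem WV_pole (hA : A.IsSymm) (he : ∀ x, 0 < e x) (v : ι → ℝ) (w : ι) (x : ℝ) :
    WV E e (Function.update v w ((pol A E e v w).re + (pol A E e v w).im * x)) =
      kick A (WV E e v) w x := by
  have h1 : (pol A E e v w).re + (pol A E e v w).im * x =
      v w + tw (Gr A (WV E e v) w w) x := by
    rw [pol, Complex.sub_re, Complex.sub_im, Complex.ofReal_re, Complex.ofReal_im, tw, bet]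
    ring
  rw [h1, WV_upd, kick]
  congr 3
  ring

theorem KKmm_WV_upd (hA : A.IsSymm) (he : ∀ x, 0 < e x) (v : ι → ℝ) (w y : ι) (s : ℝ) :
    PP A (WV E e (Function.update v w s)) w y = PP A (WV E e v) w y := by
  have hW := WV_neg (E := E) he v
  have h := PP_kick hA hW w y (s - v w)
  have him : (WV E e (Function.update v w s) y).im = (WV E e v y).im := by
    rw [WV_im, WV_im]
  rw [PP, PP, him, mul_div_assoc, mul_div_assoc, WV_upd, h]

theorem measurable_PPW (x y : ι) : Measurable fun W : ι → ℂ => PP A W x y := by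
  unfold PP
  exact (((Complex.measurable_im.comp (measurable_pi_apply y)).neg).mul (measurable_KKW x y)).div
    (measurable_mmW x)

theorem measurable_pol (w : ι) : Measurable fun v : ι → ℝ => pol A E e v w := by
  unfold pol
  exact (Complex.measurable_ofReal.comp (measurable_pi_apply w)).sub
    (((measurable_GrW w w).comp (measurable_WV E e)).inv)

/-- indicator of the very strong pairs -/
noncomputable def indc (A : Matrix ι ι ℝ) (τ : ℝ) (w y : ι) (W : ι → ℂ) : ℝ≥0∞ :=
  {W : ι → ℂ | 1 - τ < kap A W w y}.indicator (fun _ => 1) W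

theorem measurable_indc (τ : ℝ) (w y : ι) : Measurable (indc A τ w y) :=
  measurable_const.indicator (measurableSet_lt measurable_const (measurable_kapW w y))

theorem indc_le (τ : ℝ) (w y : ι) (W : ι → ℂ) : indc A τ w y W ≤ 1 := by
  unfold indc
  exact Set.indicator_le_self' (fun _ _ => zero_le) _ |>.trans le_rfl

/-- indicator of a good pole -/
noncomputable def indg (A : Matrix ι ι ℝ) (E : ℝ) (e : ι → ℝ) (lam ε : ℝ) (w : ι) (v : ι → ℝ) :
    ℝ≥0∞ :=
  {v : ι → ℝ | pol A E e v w ∈ GdE lam ε}.indicator (fun _ => 1) v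

theorem measurable_indg (lam ε : ℝ) (w : ι) : Measurable (indg A E e lam ε w) :=
  measurable_const.indicator (measurable_pol w (measurableSet_GdE lam ε))

theorem indg_upd (hA : A.IsSymm) (he : ∀ x, 0 < e x) (lam ε : ℝ) (w : ι) (v : ι → ℝ) (s : ℝ) :
    indg A E e lam ε w (Function.update v w s) = indg A E e lam ε w v := by
  unfold indg
  by_cases h : pol A E e v w ∈ GdE lam ε
  · rw [Set.indicator_of_mem (show v ∈ {v : ι → ℝ | pol A E e v w ∈ GdE lam ε} from h),
      Set.indicator_of_mem]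
    show pol A E e (Function.update v w s) w ∈ GdE lam ε
    rw [pol_upd hA he]
    exact h
  · rw [Set.indicator_of_notMem (show v ∉ {v : ι → ℝ | pol A E e v w ∈ GdE lam ε} from h),
      Set.indicator_of_notMem]
    show ¬ pol A E e (Function.update v w s) w ∈ GdE lam ε
    rw [pol_upd hA he]
    exact h

/-- the constant -/
noncomputable def KC (lam a b ε τ : ℝ) : ℝ≥0∞ :=
  ENNReal.ofReal (32 * b / a) * ENNReal.ofReal (2 * Real.pi * Real.sqrt (τ / (1 - τ))) +
    ENNReal.ofReal (192 * b * lam ^ 2 / a * ε)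

theorem measurable_upd1 (v : ι → ℝ) (w : ι) : Measurable fun s : ℝ => Function.update v w s :=
  measurable_update v

/-- one line -/
theorem line_close (hA : A.IsSymm) (he : ∀ x, 0 < e x) {lam a b : ℝ} {ν : Measure ℝ}
    (h : EdgeLaw lam a b ν) (v : ι → ℝ) (w y : ι) {ε τ : ℝ} (hε : 0 ≤ ε) (h0 : 0 < τ) (h1 : τ < 1)
    (hg : pol A E e v w ∈ GdE lam ε) :
    ∫⁻ s, ENNReal.ofReal (mm A (WV E e (Function.update v w s)) w) *
        indc A τ w y (WV E e (Function.update v w s)) ∂ν ≤
      KC lam a b ε τ * ∫⁻ s, ENNReal.ofReal (mm A (WV E e (Function.update v w s)) w) ∂ν := by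
  set p := pol A E e v w with hp
  have hpi := pol_im_pos (E := E) hA he v w
  rw [← hp] at hpi
  have hmea : Measurable fun s : ℝ => indc A τ w y (WV E e (Function.update v w s)) :=
    (measurable_indc τ w y).comp ((measurable_WV E e).comp (measurable_upd1 v w))
  have hup := up_lint h hpi hε hg hmea fun x => indc_le τ w y _
  have hcirc : ∫⁻ x, indc A τ w y (WV E e (Function.update v w (p.re + p.im * x))) *
        ENNReal.ofReal (1 / (1 + x ^ 2)) ≤
      ENNReal.ofReal (2 * Real.pi * Real.sqrt (τ / (1 - τ))) := by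
    refine le_trans (le_of_eq ?_) (close_arc hA (WV_neg (E := E) he v) w y h0 h1)
    refine lintegral_congr fun x => ?_
    rw [hp, WV_pole hA he]
    rfl
  have e1 : ∀ s : ℝ, ENNReal.ofReal (mm A (WV E e (Function.update v w s)) w) =
      ENNReal.ofReal p.im * ENNReal.ofReal (1 / ‖(s : ℂ) - p‖ ^ 2) := by
    intro s
    rw [mm_line hA he, ← hp, ENNReal.ofReal_mul hpi.le]
  simp only [e1]
  calc ∫⁻ s, ENNReal.ofReal p.im * ENNReal.ofReal (1 / ‖(s : ℂ) - p‖ ^ 2) *
        indc A τ w y (WV E e (Function.update v w s)) ∂ν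
      = ENNReal.ofReal p.im * ∫⁻ s, indc A τ w y (WV E e (Function.update v w s)) *
          ENNReal.ofReal (1 / ‖(s : ℂ) - p‖ ^ 2) ∂ν := by
        rw [← lintegral_const_mul' _ _ ENNReal.ofReal_ne_top]
        refine lintegral_congr fun s => ?_
        ring
    _ ≤ ENNReal.ofReal p.im * (KC lam a b ε τ *
          ∫⁻ s, ENNReal.ofReal (1 / ‖(s : ℂ) - p‖ ^ 2) ∂ν) := by
        refine mul_le_mul_right (hup.trans (mul_le_mul_left ?_ _)) _
        unfold KC
        gcongr
    _ = KC lam a b ε τ * ∫⁻ s, ENNReal.ofReal p.im *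
          ENNReal.ofReal (1 / ‖(s : ℂ) - p‖ ^ 2) ∂ν := by
        rw [lintegral_const_mul' _ _ ENNReal.ofReal_ne_top]
        ring

/-- **one partner `y`, in expectation.** -/
theorem close_E1 (hA : A.IsSymm) (he : ∀ x, 0 < e x) {lam a b : ℝ} (ν : ι → Measure ℝ)
    [∀ i, IsProbabilityMeasure (ν i)] {w : ι} (h : EdgeLaw lam a b (ν w)) (y : ι) {ε τ : ℝ}
    (hε : 0 ≤ ε) (h0 : 0 < τ) (h1 : τ < 1) {F : (ι → ℝ) → ℝ≥0∞} (hF : Measurable F)
    (hFi : ∀ v s, F (Function.update v w s) = F v) :
    ∫⁻ v, indg A E e lam ε w v * F v * (ENNReal.ofReal (mm A (WV E e v) w) *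
        indc A τ w y (WV E e v)) ∂(Measure.pi ν) ≤
      KC lam a b ε τ * ∫⁻ v, indg A E e lam ε w v * F v *
        ENNReal.ofReal (mm A (WV E e v) w) ∂(Measure.pi ν) := by
  have hmm : Measurable fun v : ι → ℝ => ENNReal.ofReal (mm A (WV E e v) w) :=
    ((measurable_mmW w).comp (measurable_WV E e)).ennreal_ofReal
  have hind : Measurable fun v : ι → ℝ => indc A τ w y (WV E e v) :=
    (measurable_indc τ w y).comp (measurable_WV E e)
  have hG : Measurable fun v : ι → ℝ => indg A E e lam ε w v * F v :=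
    (measurable_indg lam ε w).mul hF
  have hm1 : Measurable fun v : ι → ℝ => indg A E e lam ε w v * F v *
      (ENNReal.ofReal (mm A (WV E e v) w) * indc A τ w y (WV E e v)) := hG.mul (hmm.mul hind)
  have hm2 : Measurable fun v : ι → ℝ => indg A E e lam ε w v * F v *
      ENNReal.ofReal (mm A (WV E e v) w) := hG.mul hmm
  have hup : Measurable fun p : (ι → ℝ) × ℝ => Function.update p.1 w p.2 := measurable_update'
  have hm3 : Measurable fun v : ι → ℝ => ∫⁻ s, indg A E e lam ε w (Function.update v w s) *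
      F (Function.update v w s) *
      ENNReal.ofReal (mm A (WV E e (Function.update v w s)) w) ∂(ν w) :=
    (hm2.comp hup).lintegral_prod_right'
  rw [MAff.lintegral_resample ν w hm1, MAff.lintegral_resample ν w hm2,
    ← lintegral_const_mul _ hm3]
  refine lintegral_mono fun v => ?_
  simp only [indg_upd hA he, hFi]
  by_cases hg : pol A E e v w ∈ GdE lam ε
  · have hline : Measurable fun s : ℝ => Function.update v w s := measurable_upd1 v w
    have hl1 : Measurable fun s : ℝ => ENNReal.ofReal (mm A (WV E e (Function.update v w s)) w) *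
        indc A τ w y (WV E e (Function.update v w s)) := (hmm.comp hline).mul (hind.comp hline)
    have hl2 : Measurable fun s : ℝ =>
        ENNReal.ofReal (mm A (WV E e (Function.update v w s)) w) := hmm.comp hline
    rw [lintegral_const_mul _ hl1, lintegral_const_mul _ hl2]
    calc indg A E e lam ε w v * F v * ∫⁻ s, ENNReal.ofReal
          (mm A (WV E e (Function.update v w s)) w) *
          indc A τ w y (WV E e (Function.update v w s)) ∂(ν w)
        ≤ indg A E e lam ε w v * F v * (KC lam a b ε τ * ∫⁻ s, ENNReal.ofReal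
          (mm A (WV E e (Function.update v w s)) w) ∂(ν w)) :=
          mul_le_mul_right (line_close hA he h v w y hε h0 h1 hg) _
      _ = _ := by ring
  · have h2 : indg A E e lam ε w v = 0 := by
      unfold indg
      exact Set.indicator_of_notMem
        (show v ∉ {v : ι → ℝ | pol A E e v w ∈ GdE lam ε} from hg) _
    simp only [h2, zero_mul, lintegral_zero]
    exact zero_le

/-- **X-CLOSE**: `E[1_{pole good} F Σ_y Q_wy 1{κ_wy > 1-τ}] ≤ K E[1_{pole good} F π_w]` for every
`F ≥ 0` that does not depend on the coordinate `w`. -/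
theorem close_Q (hA : A.IsSymm) (he : ∀ x, 0 < e x) {lam a b : ℝ} (ν : ι → Measure ℝ)
    [∀ i, IsProbabilityMeasure (ν i)] {w : ι} (h : EdgeLaw lam a b (ν w)) {ε τ : ℝ}
    (hε : 0 ≤ ε) (h0 : 0 < τ) (h1 : τ < 1) {F : (ι → ℝ) → ℝ≥0∞} (hF : Measurable F)
    (hFi : ∀ v s, F (Function.update v w s) = F v) :
    ∫⁻ v, indg A E e lam ε w v * F v * (∑ y, ENNReal.ofReal (Qf A (WV E e v) w y) *
        indc A τ w y (WV E e v)) ∂(Measure.pi ν) ≤
      KC lam a b ε τ * ∫⁻ v, indg A E e lam ε w v * F v *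
        ENNReal.ofReal (pif A (WV E e v) w) ∂(Measure.pi ν) := by
  have hW : ∀ v : ι → ℝ, ∀ x, (WV E e v x).im < 0 := fun v => WV_neg (E := E) he v
  have hPm : ∀ y, Measurable fun v : ι → ℝ => ENNReal.ofReal (PP A (WV E e v) w y) := fun y =>
    ((measurable_PPW w y).comp (measurable_WV E e)).ennreal_ofReal
  have hmm : Measurable fun v : ι → ℝ => ENNReal.ofReal (mm A (WV E e v) w) :=
    ((measurable_mmW w).comp (measurable_WV E e)).ennreal_ofReal
  have hind : ∀ y, Measurable fun v : ι → ℝ => indc A τ w y (WV E e v) := fun y =>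
    (measurable_indc τ w y).comp (measurable_WV E e)
  have hee : ∀ v : ι → ℝ, -(WV E e v w).im = e w := fun v => by rw [WV_im]; ring
  have hQ : ∀ (v : ι → ℝ) (y : ι), ENNReal.ofReal (Qf A (WV E e v) w y) =
      ENNReal.ofReal (e w) * (ENNReal.ofReal (mm A (WV E e v) w) *
        ENNReal.ofReal (PP A (WV E e v) w y)) := by
    intro v y
    rw [Qf_eq hA (hW v), pif, hee, ENNReal.ofReal_mul (mul_nonneg (he w).le
      (mm_pos hA (hW v) w).le), ENNReal.ofReal_mul (he w).le, mul_assoc]
  have hpi : ∀ v : ι → ℝ, ENNReal.ofReal (pif A (WV E e v) w) =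
      ∑ y, ENNReal.ofReal (e w) * (ENNReal.ofReal (mm A (WV E e v) w) *
        ENNReal.ofReal (PP A (WV E e v) w y)) := by
    intro v
    rw [← Finset.mul_sum, ← Finset.mul_sum, ← ENNReal.ofReal_sum_of_nonneg
      (fun y _ => PP_nonneg hA (hW v) w y), PP_sum hA (hW v), ENNReal.ofReal_one, mul_one,
      pif, hee, ENNReal.ofReal_mul (he w).le]
  have hG : Measurable fun v : ι → ℝ => indg A E e lam ε w v * F v :=
    (measurable_indg lam ε w).mul hF
  have e1 : ∀ v : ι → ℝ, indg A E e lam ε w v * F v * (∑ y, ENNReal.ofReal (Qf A (WV E e v) w y) *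
        indc A τ w y (WV E e v)) = ∑ y, ENNReal.ofReal (e w) * (indg A E e lam ε w v *
          (F v * ENNReal.ofReal (PP A (WV E e v) w y)) *
          (ENNReal.ofReal (mm A (WV E e v) w) * indc A τ w y (WV E e v))) := by
    intro v
    rw [Finset.mul_sum]
    refine Finset.sum_congr rfl fun y _ => ?_
    rw [hQ]
    ring
  have e2 : ∀ v : ι → ℝ, indg A E e lam ε w v * F v * ENNReal.ofReal (pif A (WV E e v) w) =
      ∑ y, ENNReal.ofReal (e w) * (indg A E e lam ε w v *
          (F v * ENNReal.ofReal (PP A (WV E e v) w y)) *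
          ENNReal.ofReal (mm A (WV E e v) w)) := by
    intro v
    rw [hpi, Finset.mul_sum]
    refine Finset.sum_congr rfl fun y _ => ?_
    ring
  simp only [e1, e2]
  have hGP : ∀ y, Measurable fun v : ι → ℝ => indg A E e lam ε w v *
      (F v * ENNReal.ofReal (PP A (WV E e v) w y)) := fun y =>
    (measurable_indg lam ε w).mul (hF.mul (hPm y))
  have hM1 : ∀ y, Measurable fun v : ι → ℝ => indg A E e lam ε w v *
      (F v * ENNReal.ofReal (PP A (WV E e v) w y)) *
      (ENNReal.ofReal (mm A (WV E e v) w) * indc A τ w y (WV E e v)) := fun y =>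
    (hGP y).mul (hmm.mul (hind y))
  have hM2 : ∀ y, Measurable fun v : ι → ℝ => indg A E e lam ε w v *
      (F v * ENNReal.ofReal (PP A (WV E e v) w y)) *
      ENNReal.ofReal (mm A (WV E e v) w) := fun y => (hGP y).mul hmm
  rw [lintegral_finset_sum _ fun y _ => (hM1 y).const_mul _,
    lintegral_finset_sum _ fun y _ => (hM2 y).const_mul _, Finset.mul_sum]
  refine Finset.sum_le_sum fun y _ => ?_
  rw [lintegral_const_mul _ (hM1 y), lintegral_const_mul _ (hM2 y)]
  have h3 := close_E1 (E := E) hA he ν h y hε h0 h1 (F := fun v => F v *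
    ENNReal.ofReal (PP A (WV E e v) w y)) (hF.mul (hPm y)) (fun v s => by
      rw [hFi, KKmm_WV_upd hA he])
  calc ENNReal.ofReal (e w) * ∫⁻ v, indg A E e lam ε w v *
          (F v * ENNReal.ofReal (PP A (WV E e v) w y)) *
          (ENNReal.ofReal (mm A (WV E e v) w) * indc A τ w y (WV E e v)) ∂(Measure.pi ν)
      ≤ ENNReal.ofReal (e w) * (KC lam a b ε τ * ∫⁻ v, indg A E e lam ε w v *
          (F v * ENNReal.ofReal (PP A (WV E e v) w y)) *
          ENNReal.ofReal (mm A (WV E e v) w) ∂(Measure.pi ν)) := mul_le_mul_right h3 _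
    _ = _ := by ring

end P365T2.H486
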