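import Vale.Agent.P365.T2.H486.Key

/-!
# P365-T2, row X-KEY: the final linear inequality of one row.

`mob_mass`: a mobile row has mass `≥ θ / (2 hmax)` at distance `N ≥ c`.
`row_linear`: for one row `x` and one scale `ℓ2 = l²`,
`(θ/2) l² π_x (θ/(2 hmax) - Λ/C - P_x(¬hot₀) - e₀/(1-e₀) n₀) ≤ 8 ∑_k ∑_{A₁} e e |T^k|² + 8 Λ l² π_x O`.
`A1_split`: `∑_{A₁} e e |T|² ≤ π_x μ_x² + strong J + strong Λ of the row`.
-/

set_option linter.all false

namespace P365T2.H486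

open Matrix Complex P365L P365T2.Static
open scoped ComplexConjugate

variable {ι : Type*} [Fintype ι] [DecidableEq ι]
variable {A : Matrix ι ι ℝ} {W : ι → ℂ} {a : ι → ℝ}

/-- a mobile row has mass far away -/
theorem mob_mass (hA : A.IsSymm) (hW : ∀ x, (W x).im < 0) (x : ι) {h N : ι → ℝ} {th hmax c : ℝ}
    (hh : ∀ y, h y ≤ hmax) (hth0 : 0 ≤ th) (hhN : ∀ y, N y < c → h y ≤ th / 2)
    (hth : th ≤ ∑ y, PP A W x y * h y) :
    th / 2 ≤ hmax * ∑ y, if c ≤ N y then PP A W x y else 0 := by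
  have h1 : ∀ y ∈ Finset.univ, PP A W x y * h y ≤
      hmax * (if c ≤ N y then PP A W x y else 0) + PP A W x y * (th / 2) := by
    intro y _
    have hp := PP_nonneg hA hW x y
    by_cases hc : c ≤ N y
    · rw [if_pos hc]
      have := mul_le_mul_of_nonneg_left (hh y) hp
      nlinarith
    · rw [if_neg hc]
      have := mul_le_mul_of_nonneg_left (hhN y (not_le.1 hc)) hp
      linarith
  have h2 := Finset.sum_le_sum h1
  rw [Finset.sum_add_distrib, ← Finset.mul_sum, ← Finset.sum_mul, PP_sum hA hW] at h2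
  linarith

theorem Qf_PP (hA : A.IsSymm) (hW : ∀ x, (W x).im < 0) (w x : ι) :
    Qf A W w x = pif A W x * PP A W x w := by
  rw [Qf_symm hA, Qf_eq hA hW]

theorem Nsq_nonneg {κ : Type*} [Fintype κ] (F : κ → ι → ℝ) (w x : ι) : 0 ≤ Nsq F w x :=
  Finset.sum_nonneg fun _ _ => sq_nonneg _

/-- the strong part of a row: `A₀` -/
noncomputable def A0f (A : Matrix ι ι ℝ) (W : ι → ℂ) (x : ι) (H0 : Finset ι) (e0 : ℝ) : Finset ι := by
  classical exact H0.filter (fun w => e0 ≤ kap A W x w)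

/-- `A₁ = A₀ ∪ {y ∈ H₁ : λ' < λ^{A₀}_xy}` -/
noncomputable def A1f (A : Matrix ι ι ℝ) (W : ι → ℂ) (x : ι) (H0 H1 : Finset ι) (e0 e2 l' : ℝ) :
    Finset ι := by
  classical exact A0f A W x H0 e0 ∪ H1.filter (fun y => l' < lamR A W (A0f A W x H0 e0) e2 x y)

theorem mem_A0f {x w : ι} {H0 : Finset ι} {e0 : ℝ} :
    w ∈ A0f A W x H0 e0 ↔ w ∈ H0 ∧ e0 ≤ kap A W x w := by
  classical
  rw [A0f, Finset.mem_filter]

theorem mem_A1f {x y : ι} {H0 H1 : Finset ι} {e0 e2 l' : ℝ} :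
    y ∈ A1f A W x H0 H1 e0 e2 l' ↔ y ∈ A0f A W x H0 e0 ∨
      (y ∈ H1 ∧ l' < lamR A W (A0f A W x H0 e0) e2 x y) := by
  classical
  rw [A1f, Finset.mem_union, Finset.mem_filter]

theorem A0f_subset (x : ι) (H0 H1 : Finset ι) (e0 e2 l' : ℝ) :
    A0f A W x H0 e0 ⊆ A1f A W x H0 H1 e0 e2 l' := fun w hw => mem_A1f.2 (Or.inl hw)

/-- the outflux of the canonical choice -/
theorem outflux_row (hA : A.IsSymm) (hW : ∀ x, (W x).im < 0) (x : ι) (H0 H1 : Finset ι)
    {e0 e2 e3 l' : ℝ} (he0 : 0 < e0) (he2 : 0 < e2) (he21 : e2 < 1) (he3 : e3 < 1)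
    (hl0 : 0 ≤ l') :
    outflux A W (A0f A W x H0 e0) (A1f A W x H0 H1 e0 e2 l') ≤
      (1 / e0) * ∑ w ∈ A0f A W x H0 e0, PP A W x w * (∑ y ∈ H1ᶜ, PP A W w y +
        ∑ y ∈ H1, if e3 < kap A W w y then PP A W w y else 0) +
      (e2 / (1 - e2) + l' / (1 - e3)) / e0 * ∑ y ∈ H1, pif A W y := by
  refine outflux_le hA hW x he0 he2 he21 he3 hl0 (fun w hw => (mem_A0f.1 hw).2) ?_
  intro y hy hy1
  by_contra hlt
  exact hy1 (mem_A1f.2 (Or.inr ⟨hy, not_le.1 hlt⟩))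

/-- mass of the strong part of a row: `P_x(A₀) ≥ P_x(N ≥ c) - P_x(B) - e₀/(1-e₀) n₀`, where `B` is
everything at distance `N ≥ c` outside `H₀`. -/
theorem PP_A0_ge (hA : A.IsSymm) (hW : ∀ x, (W x).im < 0) (x : ι) (H0 : Finset ι) {e0 : ℝ}
    (he0 : 0 ≤ e0) (he01 : e0 < 1) :
    ∑ w ∈ H0, PP A W x w - e0 / (1 - e0) * ∑ w ∈ H0, pif A W w ≤
      ∑ w ∈ A0f A W x H0 e0, PP A W x w := by
  classical
  have h1 : ∑ w ∈ H0, PP A W x w = ∑ w ∈ A0f A W x H0 e0, PP A W x w +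
      ∑ w ∈ H0.filter (fun w => ¬ e0 ≤ kap A W x w), PP A W x w := by
    rw [← Finset.sum_filter_add_sum_filter_not H0 (fun w => e0 ≤ kap A W x w)]
    congr 1
  have h2 : ∑ w ∈ H0.filter (fun w => ¬ e0 ≤ kap A W x w), PP A W x w ≤
      e0 / (1 - e0) * ∑ w ∈ H0, pif A W w := by
    rw [Finset.mul_sum]
    refine (Finset.sum_le_sum (g := fun w => e0 / (1 - e0) * pif A W w) ?_).trans
      (Finset.sum_le_sum_of_subset_of_nonneg (Finset.filter_subset _ _) fun w _ _ => ?_)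
    · intro w hw
      have hw2 := not_le.1 (Finset.mem_filter.1 hw).2
      have hx := pif_pos hA hW x
      have h3 := Qf_le_of_kap hA hW hw2.le he01
      rw [Qf_eq hA hW] at h3
      have h4 : pif A W x * PP A W x w ≤ pif A W x * (e0 / (1 - e0) * pif A W w) := by
        refine h3.trans (le_of_eq (by ring))
      exact le_of_mul_le_mul_left h4 hx
    · have := pif_pos hA hW w
      have h12 : 0 < 1 - e0 := by linarith
      positivity
  linarith

/-- **THE LINEAR INEQUALITY OF ONE ROW** (general finsets `H₀`, `H₁`). -/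
theorem row_linear (hA : A.IsSymm) (hW : ∀ x, (W x).im < 0) {κ : Type*} [Fintype κ]
    (F : κ → ι → ℝ) (x : ι) (H0 H1 : Finset ι) {c V e0 e2 l' : ℝ} (hc : 0 ≤ c)
    (hH0 : ∀ w ∈ H0, c ≤ Nsq F w x) (he0 : 0 ≤ e0) (he01 : e0 < 1)
    (hV : ∑ y, PP A W x y * Nsq F y x ≤ V) :
    c * pif A W x * (∑ w ∈ H0, PP A W x w - e0 / (1 - e0) * ∑ w ∈ H0, pif A W w) ≤
      8 * ∑ k, ∑ y ∈ A1f A W x H0 H1 e0 e2 l',
        (-(W y).im) * (-(W x).im) * ‖Tm A W (F k) y x‖ ^ 2 +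
      8 * outflux A W (A0f A W x H0 e0) (A1f A W x H0 H1 e0 e2 l') * (pif A W x * V) := by
  have hx := pif_pos hA hW x
  have h1 := PP_A0_ge hA hW x H0 he0 he01
  have h2 := key_fam hA hW F x (A0f_subset (A := A) (W := W) x H0 H1 e0 e2 l')
  have h3 : c * pif A W x * ∑ w ∈ A0f A W x H0 e0, PP A W x w ≤
      ∑ w ∈ A0f A W x H0 e0, Qf A W w x * Nsq F w x := by
    rw [Finset.mul_sum]
    refine Finset.sum_le_sum fun w hw => ?_
    rw [Qf_PP hA hW]
    have hN := hH0 w (mem_A0f.1 hw).1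
    have := mul_le_mul_of_nonneg_left hN (mul_nonneg hx.le (PP_nonneg hA hW x w))
    calc c * pif A W x * PP A W x w = pif A W x * PP A W x w * c := by ring
      _ ≤ _ := this
  have h4 : ∑ y, Qf A W y x * Nsq F y x ≤ pif A W x * V := by
    have h5 : ∑ y, Qf A W y x * Nsq F y x = pif A W x * ∑ y, PP A W x y * Nsq F y x := by
      rw [Finset.mul_sum]
      refine Finset.sum_congr rfl fun y _ => ?_
      rw [Qf_PP hA hW]
      ring
    rw [h5]
    exact mul_le_mul_of_nonneg_left hV hx.le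
  have h6 := mul_le_mul_of_nonneg_left h1 (mul_nonneg hc hx.le)
  have h7 := mul_le_mul_of_nonneg_left h4
    (mul_nonneg (by norm_num : (0 : ℝ) ≤ 8) (outflux_nonneg (A := A) hW (A0f A W x H0 e0)
      (A1f A W x H0 H1 e0 e2 l')))
  linarith

/-- the mass of `H₀ = {c ≤ N ≤ C ℓ2, hot₀}` for a mobile row -/
theorem PP_H0_ge (hA : A.IsSymm) (hW : ∀ x, (W x).im < 0) (x : ι) {h N : ι → ℝ}
    {th hmax c R V : ℝ} (hot : ι → Prop) (H0 : Finset ι) (hhm : 0 < hmax)
    (hN0 : ∀ y, 0 ≤ N y) (hh : ∀ y, h y ≤ hmax) (hth0 : 0 ≤ th)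
    (hhN : ∀ y, N y < c → h y ≤ th / 2) (hth : th ≤ ∑ y, PP A W x y * h y) (hR : 0 < R)
    (hV : ∑ y, PP A W x y * N y ≤ V) [DecidablePred hot]
    (hH0 : ∀ w, c ≤ N w → N w ≤ R → hot w → w ∈ H0) :
    th / (2 * hmax) - V / R - (∑ y, if ¬ hot y then PP A W x y else 0) ≤
      ∑ w ∈ H0, PP A W x w := by
  classical
  have h1 := mob_mass hA hW x hh hth0 hhN hth
  have h2 : th / (2 * hmax) ≤ ∑ y, if c ≤ N y then PP A W x y else 0 := by
    rw [div_le_iff₀ (by positivity)]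
    linarith
  have h3 : ∀ y ∈ Finset.univ, (if c ≤ N y then PP A W x y else 0) ≤
      (if y ∈ H0 then PP A W x y else 0) + PP A W x y * N y / R +
        (if ¬ hot y then PP A W x y else 0) := by
    intro y _
    have hp := PP_nonneg hA hW x y
    have hpr : 0 ≤ PP A W x y * N y / R := div_nonneg (mul_nonneg hp (hN0 y)) hR.le
    have hp1 : 0 ≤ (if y ∈ H0 then PP A W x y else 0) := by
      split_ifs
      · exact hp
      · exact le_rfl
    have hp2 : 0 ≤ (if ¬ hot y then PP A W x y else 0) := by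
      by_cases hho : hot y
      · rw [if_neg (not_not.2 hho)]
      · rw [if_pos hho]
        exact hp
    by_cases hc : c ≤ N y
    · rw [if_pos hc]
      by_cases hr : N y ≤ R
      · by_cases hho : hot y
        · rw [if_pos (hH0 y hc hr hho)]
          linarith
        · rw [if_pos hho]
          linarith
      · have h4 : PP A W x y ≤ PP A W x y * N y / R := by
          rw [le_div_iff₀ hR]
          exact mul_le_mul_of_nonneg_left (not_le.1 hr).le hp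
        linarith
    · rw [if_neg hc]
      linarith
  have h4 := Finset.sum_le_sum h3
  rw [Finset.sum_add_distrib, Finset.sum_add_distrib, ← Finset.sum_div] at h4
  have h5 : ∑ y, (if y ∈ H0 then PP A W x y else 0) = ∑ w ∈ H0, PP A W x w := by
    rw [← Finset.sum_filter]
    exact Finset.sum_congr (by ext; simp) fun _ _ => rfl
  rw [h5] at h4
  have h6 : (∑ y, PP A W x y * N y) / R ≤ V / R := div_le_div_of_nonneg_right hV hR.le
  linarith

/-- `∑_{A₁} e e |T|² ≤ π_x μ_x² + (strong J of the row) + (1/λ') (strong Λ of the row)` -/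
theorem A1_split (hA : A.IsSymm) (hW : ∀ x, (W x).im < 0) (x : ι) (H0 H1 : Finset ι)
    {e0 e2 l' : ℝ} (hl : 0 < l') :
    ∑ y ∈ A1f A W x H0 H1 e0 e2 l', (-(W y).im) * (-(W x).im) * ‖Tm A W a y x‖ ^ 2 ≤
      pif A W x * muf A W a x ^ 2 +
      (∑ y, if y ≠ x ∧ y ∈ H0 ∧ e0 ≤ kap A W x y then
        (-(W y).im) * (-(W x).im) * ‖Tm A W a y x‖ ^ 2 else 0) +
      (1 / l') * ∑ y, if y ≠ x ∧ y ∈ H1 ∧ y ∉ A0f A W x H0 e0 then
        (-(W y).im) * (-(W x).im) * ‖Tm A W a y x‖ ^ 2 * lamR A W (A0f A W x H0 e0) e2 x y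
        else 0 := by
  classical
  have hx := pif_pos hA hW x
  have he : ∀ w, 0 ≤ -(W w).im := fun w => by linarith [hW w]
  set g : ι → ℝ := fun y => (-(W y).im) * (-(W x).im) * ‖Tm A W a y x‖ ^ 2 with hg
  have hg0 : ∀ y, 0 ≤ g y := fun y => mul_nonneg (mul_nonneg (he y) (he x)) (sq_nonneg _)
  have hdiag : g x ≤ pif A W x * muf A W a x ^ 2 := by
    have h1 : ‖Tm A W a x x‖ ^ 2 = (mm A W x * muf A W a x) ^ 2 := by
      rw [Tm_self hA hW, Complex.norm_real, Real.norm_eq_abs, sq_abs]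
    have h2 := e_mul_mm_le_one hA hW x
    have h3 : g x = (pif A W x * muf A W a x ^ 2) * ((-(W x).im) * mm A W x) := by
      simp only [hg]
      rw [h1, pif]
      ring
    rw [h3]
    have h4 : 0 ≤ pif A W x * muf A W a x ^ 2 := by positivity
    calc (pif A W x * muf A W a x ^ 2) * ((-(W x).im) * mm A W x)
        ≤ (pif A W x * muf A W a x ^ 2) * 1 := mul_le_mul_of_nonneg_left h2 h4
      _ = _ := mul_one _
  have hlam : ∀ y, 0 ≤ lamR A W (A0f A W x H0 e0) e2 x y := fun y => lamR_nonneg hA hW _ _ _ _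
  have h5 : ∑ y ∈ A1f A W x H0 H1 e0 e2 l', g y =
      ∑ y, if y ∈ A1f A W x H0 H1 e0 e2 l' then g y else 0 := by
    rw [← Finset.sum_filter]
    exact Finset.sum_congr (by ext; simp) fun _ _ => rfl
  have h6 : ∀ y ∈ Finset.univ, (if y ∈ A1f A W x H0 H1 e0 e2 l' then g y else 0) ≤
      (if y = x then g x else 0) + (if y ≠ x ∧ y ∈ H0 ∧ e0 ≤ kap A W x y then g y else 0) +
      (1 / l') * (if y ≠ x ∧ y ∈ H1 ∧ y ∉ A0f A W x H0 e0 then
        g y * lamR A W (A0f A W x H0 e0) e2 x y else 0) := by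
    intro y _
    have hp2 : 0 ≤ (if y ≠ x ∧ y ∈ H0 ∧ e0 ≤ kap A W x y then g y else 0) := by
      split_ifs <;> [exact hg0 y; exact le_rfl]
    have hp3 : 0 ≤ (1 / l') * (if y ≠ x ∧ y ∈ H1 ∧ y ∉ A0f A W x H0 e0 then
        g y * lamR A W (A0f A W x H0 e0) e2 x y else 0) := by
      refine mul_nonneg (by positivity) ?_
      split_ifs <;> [exact mul_nonneg (hg0 y) (hlam y); exact le_rfl]
    by_cases hyx : y = x
    · rw [if_pos hyx]
      have h9 : (if y ∈ A1f A W x H0 H1 e0 e2 l' then g y else 0) ≤ g x := by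
        rw [hyx]
        split_ifs <;> [exact le_rfl; exact hg0 x]
      linarith
    · rw [if_neg hyx]
      by_cases h7 : y ∈ A1f A W x H0 H1 e0 e2 l'
      · rw [if_pos h7]
        by_cases h8 : y ∈ A0f A W x H0 e0
        · have h9 := mem_A0f.1 h8
          rw [if_pos ⟨hyx, h9.1, h9.2⟩]
          linarith
        · rcases mem_A1f.1 h7 with h9 | h9
          · exact absurd h9 h8
          · rw [if_pos (⟨hyx, h9.1, h8⟩ : y ≠ x ∧ y ∈ H1 ∧ y ∉ A0f A W x H0 e0)]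
            have h10 : g y ≤ (1 / l') * (g y * lamR A W (A0f A W x H0 e0) e2 x y) := by
              rw [one_div, ← div_eq_inv_mul, le_div_iff₀ hl]
              exact mul_le_mul_of_nonneg_left h9.2.le (hg0 y)
            linarith
      · rw [if_neg h7]
        linarith
  rw [h5]
  refine (Finset.sum_le_sum h6).trans ?_
  rw [Finset.sum_add_distrib, Finset.sum_add_distrib, ← Finset.mul_sum, Finset.sum_ite_eq',
    if_pos (Finset.mem_univ x)]
  linarith

/-- `H₀ = {c ≤ N(w,x) ≤ R, hot w}` -/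
noncomputable def H0f {κ : Type*} [Fintype κ] (F : κ → ι → ℝ) (x : ι) (c R : ℝ)
    (hot : ι → Prop) : Finset ι := by
  classical exact Finset.univ.filter (fun w => c ≤ Nsq F w x ∧ Nsq F w x ≤ R ∧ hot w)

omit [DecidableEq ι] in
theorem mem_H0f {κ : Type*} [Fintype κ] {F : κ → ι → ℝ} {x w : ι} {c R : ℝ} {hot : ι → Prop} :
    w ∈ H0f F x c R hot ↔ c ≤ Nsq F w x ∧ Nsq F w x ≤ R ∧ hot w := by
  classical
  rw [H0f, Finset.mem_filter]
  simp

/-- **FINAL ROW INEQUALITY.**  `x` a row, `h` a kernel row with `h ≤ hmax` and `h ≤ θ/2` on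
`N(·,x) < c`; mobile: `θ ≤ P_x h`; `V ≥ P_x N`. `H₁` is any finset (near + hot at the second level). -/
theorem row_final (hA : A.IsSymm) (hW : ∀ x, (W x).im < 0) {κ : Type*} [Fintype κ]
    (F : κ → ι → ℝ) (x : ι) (H1 : Finset ι) (hot : ι → Prop) [DecidablePred hot] {h : ι → ℝ}
    {th hmax c R V e0 e2 e3 l' : ℝ} (hc : 0 ≤ c) (hhm : 0 < hmax) (hh : ∀ y, h y ≤ hmax)
    (hth0 : 0 ≤ th) (hhN : ∀ y, Nsq F y x < c → h y ≤ th / 2)
    (hth : th ≤ ∑ y, PP A W x y * h y) (hR : 0 < R)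
    (hV : ∑ y, PP A W x y * Nsq F y x ≤ V)
    (he0 : 0 < e0) (he01 : e0 < 1) (he2 : 0 < e2) (he21 : e2 < 1) (he3 : e3 < 1) (hl : 0 < l') :
    c * pif A W x * (th / (2 * hmax) - V / R - (∑ y, if ¬ hot y then PP A W x y else 0) -
        e0 / (1 - e0) * ∑ w ∈ H0f F x c R hot, pif A W w) ≤
      8 * (pif A W x * ∑ k, muf A W (F k) x ^ 2 +
        (∑ y, if y ≠ x ∧ y ∈ H0f F x c R hot ∧ e0 ≤ kap A W x y then
          ∑ k, (-(W y).im) * (-(W x).im) * ‖Tm A W (F k) y x‖ ^ 2 else 0) +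
        (1 / l') * ∑ y, if y ≠ x ∧ y ∈ H1 ∧ y ∉ A0f A W x (H0f F x c R hot) e0 then
          (∑ k, (-(W y).im) * (-(W x).im) * ‖Tm A W (F k) y x‖ ^ 2) *
            lamR A W (A0f A W x (H0f F x c R hot) e0) e2 x y else 0) +
      8 * V * pif A W x * ((1 / e0) * ∑ w ∈ A0f A W x (H0f F x c R hot) e0,
          PP A W x w * (∑ y ∈ H1ᶜ, PP A W w y +
            ∑ y ∈ H1, if e3 < kap A W w y then PP A W w y else 0) +
        (e2 / (1 - e2) + l' / (1 - e3)) / e0 * ∑ y ∈ H1, pif A W y) := by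
  classical
  set H0 := H0f F x c R hot with hH0
  have hx := pif_pos hA hW x
  have h1 := PP_H0_ge (N := fun y => Nsq F y x) (c := c) hA hW x hot H0 hhm
    (fun y => Nsq_nonneg F y x) hh hth0 hhN hth hR hV
    (fun w h1 h2 h3 => mem_H0f.2 ⟨h1, h2, h3⟩)
  have h2 := row_linear hA hW F x H0 H1 (e2 := e2) (l' := l') hc (fun w hw => (mem_H0f.1 hw).1)
    he0.le he01 hV
  have h3 := outflux_row hA hW x H0 H1 he0 he2 he21 he3 hl.le (l' := l')
  have h4 := fun k => A1_split (a := F k) hA hW x H0 H1 (e0 := e0) (e2 := e2) hl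
  have h5 := Finset.sum_le_sum fun k (_ : k ∈ Finset.univ) => h4 k
  have hV0 : 0 ≤ V := (Finset.sum_nonneg fun y _ =>
    mul_nonneg (PP_nonneg hA hW x y) (Nsq_nonneg F y x)).trans hV
  have h6 := mul_le_mul_of_nonneg_left h3 (mul_nonneg (by positivity : (0 : ℝ) ≤ 8 * V) hx.le)
  have h7 := mul_le_mul_of_nonneg_left (sub_le_sub_right h1
    (e0 / (1 - e0) * ∑ w ∈ H0, pif A W w)) (mul_nonneg hc hx.le)
  have h8 : ∑ k, (pif A W x * muf A W (F k) x ^ 2 +
      (∑ y, if y ≠ x ∧ y ∈ H0 ∧ e0 ≤ kap A W x y then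
        (-(W y).im) * (-(W x).im) * ‖Tm A W (F k) y x‖ ^ 2 else 0) +
      (1 / l') * ∑ y, if y ≠ x ∧ y ∈ H1 ∧ y ∉ A0f A W x H0 e0 then
        (-(W y).im) * (-(W x).im) * ‖Tm A W (F k) y x‖ ^ 2 * lamR A W (A0f A W x H0 e0) e2 x y
        else 0) =
      pif A W x * ∑ k, muf A W (F k) x ^ 2 +
        (∑ y, if y ≠ x ∧ y ∈ H0 ∧ e0 ≤ kap A W x y then
          ∑ k, (-(W y).im) * (-(W x).im) * ‖Tm A W (F k) y x‖ ^ 2 else 0) +
        (1 / l') * ∑ y, if y ≠ x ∧ y ∈ H1 ∧ y ∉ A0f A W x H0 e0 then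
          (∑ k, (-(W y).im) * (-(W x).im) * ‖Tm A W (F k) y x‖ ^ 2) *
            lamR A W (A0f A W x H0 e0) e2 x y else 0 := by
    rw [Finset.sum_add_distrib, Finset.sum_add_distrib, ← Finset.mul_sum, ← Finset.mul_sum]
    have e1 : ∀ g : κ → ι → ℝ, ∀ q : ι → Prop, ∀ _ : DecidablePred q,
        ∑ k, ∑ y, (if q y then g k y else 0) = ∑ y, if q y then ∑ k, g k y else 0 := by
      intro g q _
      rw [Finset.sum_comm]
      refine Finset.sum_congr rfl fun y _ => ?_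
      split_ifs
      · rfl
      · simp
    rw [e1, e1]
    congr 2
    refine Finset.sum_congr rfl fun y _ => ?_
    rw [Finset.sum_mul]
  rw [h8] at h5
  have h9 : 8 * outflux A W (A0f A W x H0 e0) (A1f A W x H0 H1 e0 e2 l') * (pif A W x * V) =
      8 * V * pif A W x * outflux A W (A0f A W x H0 e0) (A1f A W x H0 H1 e0 e2 l') := by ring
  rw [h9] at h2
  linarith

end P365T2.H486
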