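import Vale.Agent.P365.T2.H486.Close

/-!
# P365-T2, row X-CLOSE, the law: upper ratio property of edge laws, and the expectation.
-/

set_option linter.all false

namespace P365T2.H486

open MeasureTheory Set P365L P365L.Stat P365L.T2.X968 P365T1 P365T2.H862
open Complex hiding eta
open scoped ENNReal

variable {lam a b : ℝ} {ν : Measure ℝ}

/-- good poles with margin `ε` -/
def GdE (lam ε : ℝ) : Set ℂ := {p | 40 * p.im ≤ ph lam p.re ∧ p.im ≤ ε * ph lam p.re ^ 3}

theorem measurableSet_GdE (lam ε : ℝ) : MeasurableSet (GdE lam ε) := by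
  have h1 : Measurable fun p : ℂ => ph lam p.re :=
    (continuous_ph lam).measurable.comp Complex.measurable_re
  exact (measurableSet_le (Complex.measurable_im.const_mul 40) h1).inter
    (measurableSet_le Complex.measurable_im ((h1.pow_const 3).const_mul ε))

theorem GdE_subset {ε : ℝ} (hε : ε ≤ 1) : GdE lam ε ⊆ GdL lam := by
  intro p hp
  refine ⟨hp.1, hp.2.trans ?_⟩
  have := pow_nonneg (ph_nonneg lam p.re) 3
  nlinarith

/-- bad poles (margin `ε`) have bounded mass -/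
theorem bad_lintE (h : EdgeLaw lam a b ν) {p : ℂ} (hp : 0 < p.im) {ε : ℝ} (hε0 : 0 < ε)
    (hε : ε ≤ 1) (hg : p ∉ GdE lam ε) :
    ∫⁻ v, ENNReal.ofReal (1 / ‖(v : ℂ) - p‖ ^ 2) ∂ν ≤
      ENNReal.ofReal (CB lam b / ε / (1 + ‖p‖ ^ 2)) := by
  have hlam := h.lam_pos
  have hb0 := h.b_pos
  have hπ := Real.pi_pos
  have hCB : 0 ≤ CB lam b := by unfold CB; positivity
  by_cases hgl : p ∈ GdL lam
  · rw [h.lint_eq hp]
    refine ENNReal.ofReal_le_ofReal ?_
    have h1 : ε * ph lam p.re ^ 3 < p.im := by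
      by_contra hcon
      exact hg ⟨hgl.1, not_lt.1 hcon⟩
    have hφ : 0 < ph lam p.re := lt_of_lt_of_le (by positivity) hgl.1
    have hc : |p.re| ≤ lam := by
      by_contra hcon
      push Not at hcon
      rw [ph_zero hcon.le] at hφ
      exact lt_irrefl _ hφ
    have h2 := h.Mn_le hp (c := p.re) (by linarith)
    have h3 : ph lam p.re ^ 3 / p.im ≤ 1 / ε := by
      rw [div_le_div_iff₀ hp hε0]
      linarith
    have h4 : Mn ν p.re p.im ≤ 4 * b * Real.pi * (1 / ε) + 24 * b * lam ^ 2 :=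
      h2.trans (add_le_add (mul_le_mul_of_nonneg_left h3 (by positivity)) le_rfl)
    have hpn : ‖p‖ ^ 2 = p.re ^ 2 + p.im ^ 2 := by
      rw [← Complex.normSq_eq_norm_sq, Complex.normSq_apply]; ring
    have h5 : 1 + ‖p‖ ^ 2 ≤ 1 + 4 * lam ^ 2 := by
      rw [hpn]
      have h6 : p.re ^ 2 ≤ lam ^ 2 := by
        rw [← sq_abs]; exact pow_le_pow_left₀ (abs_nonneg _) hc 2
      have h7 : p.im ≤ lam := by
        have := ph_le hlam.le p.re
        have := hgl.1
        have : 40 * p.im ≤ ph lam p.re := this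
        nlinarith
      have h8 : p.im ^ 2 ≤ lam ^ 2 := pow_le_pow_left₀ hp.le h7 2
      nlinarith [sq_nonneg lam]
    rw [le_div_iff₀ (by positivity)]
    have h9 : Mn ν p.re p.im * (1 + ‖p‖ ^ 2) ≤
        (4 * b * Real.pi * (1 / ε) + 24 * b * lam ^ 2) * (1 + 4 * lam ^ 2) :=
      mul_le_mul h4 h5 (by positivity) (by positivity)
    refine h9.trans ?_
    rw [le_div_iff₀ hε0]
    have h10 : (4 * b * Real.pi * (1 / ε) + 24 * b * lam ^ 2) * (1 + 4 * lam ^ 2) * ε =
        (4 * b * Real.pi + 24 * b * lam ^ 2 * ε) * (1 + 4 * lam ^ 2) := by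
      field_simp
    rw [h10]
    unfold CB
    have h11 : 24 * b * lam ^ 2 * ε ≤ 24 * b * lam ^ 2 * 1 :=
      mul_le_mul_of_nonneg_left hε (by positivity)
    have h12 : (4 * b * Real.pi + 24 * b * lam ^ 2 * ε) * (1 + 4 * lam ^ 2) ≤
        (4 * b * Real.pi * (1 + 40 * lam ^ 2) + 24 * b * lam ^ 2) * (1 + 4 * lam ^ 2) := by
      refine mul_le_mul_of_nonneg_right ?_ (by positivity)
      have : 0 ≤ 4 * b * Real.pi * (40 * lam ^ 2) := by positivity
      nlinarith
    have h13 : 0 ≤ 1 / lam ^ 2 := by positivity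
    linarith
  · refine (h.bad_lint hp hgl).trans (ENNReal.ofReal_le_ofReal ?_)
    refine div_le_div_of_nonneg_right ?_ (by positivity)
    rw [le_div_iff₀ hε0]
    nlinarith

/-- lower bound of the mass of a resonance in good position -/
theorem mass_ge (h : EdgeLaw lam a b ν) {p : ℂ} (hp : 0 < p.im) (hg : 40 * p.im ≤ ph lam p.re) :
    ENNReal.ofReal (a * ph lam p.re ^ 3 / (8 * p.im)) ≤
      ∫⁻ v, ENNReal.ofReal (1 / ‖(v : ℂ) - p‖ ^ 2) ∂ν := by
  have hlam := h.lam_pos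
  have ha0 := h.a_pos
  have hb0 := h.b_pos
  obtain ⟨ρ, hm, hν, hb⟩ := h.dens
  have h0 : ∀ v, 0 ≤ ρ v := fun v =>
    (mul_nonneg ha0.le (pow_nonneg (ph_nonneg _ _) 3)).trans (hb v).1
  have hF : Measurable fun v : ℝ => ENNReal.ofReal (1 / ‖(v : ℂ) - p‖ ^ 2) :=
    (measurable_const.div (((Complex.measurable_ofReal.sub_const p).norm).pow_const 2)).ennreal_ofReal
  have h1 : ∀ v ∈ Icc (p.re - p.im) (p.re + p.im),
      ENNReal.ofReal (a * ph lam p.re ^ 3 / 8 * (1 / (2 * p.im ^ 2))) ≤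
      ENNReal.ofReal (ρ v) * ENNReal.ofReal (1 / ‖(v : ℂ) - p‖ ^ 2) := by
    intro v hv
    rw [← ENNReal.ofReal_mul (h0 v)]
    refine ENNReal.ofReal_le_ofReal ?_
    have h2 : |v - p.re| ≤ p.im := abs_le.2 ⟨by linarith [hv.1], by linarith [hv.2]⟩
    have h3 : ph lam p.re / 2 ≤ ph lam v := by
      have h4 := ph_lip lam p.re v
      rw [abs_sub_comm] at h4
      linarith
    have h4 : a * ph lam p.re ^ 3 / 8 ≤ ρ v := by
      refine le_trans ?_ (hb _).1
      have h5 : (ph lam p.re / 2) ^ 3 ≤ ph lam v ^ 3 :=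
        pow_le_pow_left₀ (by have := ph_nonneg lam p.re; positivity) h3 3
      calc a * ph lam p.re ^ 3 / 8 = a * (ph lam p.re / 2) ^ 3 := by ring
        _ ≤ _ := mul_le_mul_of_nonneg_left h5 ha0.le
    have h5 : 1 / (2 * p.im ^ 2) ≤ 1 / ‖(v : ℂ) - p‖ ^ 2 := by
      rw [norm_sq_eq_dn]
      refine one_div_le_one_div_of_le (dn_pos hp _ _) ?_
      unfold dn
      have := pow_le_pow_left₀ (abs_nonneg _) h2 2
      rw [sq_abs] at this
      linarith
    exact mul_le_mul h4 h5 (by positivity) (h0 v)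
  calc ENNReal.ofReal (a * ph lam p.re ^ 3 / (8 * p.im))
      = ∫⁻ v in Icc (p.re - p.im) (p.re + p.im),
          ENNReal.ofReal (a * ph lam p.re ^ 3 / 8 * (1 / (2 * p.im ^ 2))) := by
        rw [setLIntegral_const, Real.volume_Icc, ← ENNReal.ofReal_mul (by
          have := ph_nonneg lam p.re; positivity)]
        congr 1
        field_simp
        ring
    _ ≤ ∫⁻ v in Icc (p.re - p.im) (p.re + p.im),
          ENNReal.ofReal (ρ v) * ENNReal.ofReal (1 / ‖(v : ℂ) - p‖ ^ 2) :=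
        setLIntegral_mono' measurableSet_Icc h1
    _ ≤ ∫⁻ v, ENNReal.ofReal (ρ v) * ENNReal.ofReal (1 / ‖(v : ℂ) - p‖ ^ 2) :=
        setLIntegral_le_lintegral _ _
    _ = _ := by
        rw [hν, lintegral_withDensity_eq_lintegral_mul _ hm.ennreal_ofReal hF]
        rfl

/-- **upper ratio property**: the law is dominated by the uniform law on the circle, up to `ε` -/
theorem up_lint (h : EdgeLaw lam a b ν) {p : ℂ} (hp : 0 < p.im) {ε : ℝ} (hε0 : 0 ≤ ε)
    (hg : p ∈ GdE lam ε) {g : ℝ → ℝ≥0∞} (hgm : Measurable g) (hg1 : ∀ x, g x ≤ 1) :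
    ∫⁻ v, g v * ENNReal.ofReal (1 / ‖(v : ℂ) - p‖ ^ 2) ∂ν ≤
      (ENNReal.ofReal (32 * b / a) * (∫⁻ x, g (p.re + p.im * x) *
        ENNReal.ofReal (1 / (1 + x ^ 2))) + ENNReal.ofReal (192 * b * lam ^ 2 / a * ε)) *
      ∫⁻ v, ENNReal.ofReal (1 / ‖(v : ℂ) - p‖ ^ 2) ∂ν := by
  have hlam := h.lam_pos
  have ha0 := h.a_pos
  have hb0 := h.b_pos
  have hT := mass_ge h hp hg.1
  obtain ⟨ρ, hm, hν, hb⟩ := h.dens
  have h0 : ∀ v, 0 ≤ ρ v := fun v =>
    (mul_nonneg ha0.le (pow_nonneg (ph_nonneg _ _) 3)).trans (hb v).1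
  set φ := ph lam p.re with hφd
  have hφ : 0 < φ := lt_of_lt_of_le (by positivity) hg.1
  have hc : |p.re| ≤ 2 * lam := by
    by_contra hcon
    push Not at hcon
    rw [hφd, ph_zero (by linarith)] at hφ
    exact lt_irrefl _ hφ
  set T := ∫⁻ v, ENNReal.ofReal (1 / ‖(v : ℂ) - p‖ ^ 2) ∂ν with hTd
  have hF : Measurable fun v : ℝ => g v * ENNReal.ofReal (1 / ‖(v : ℂ) - p‖ ^ 2) :=
    hgm.mul (measurable_const.div
      (((Complex.measurable_ofReal.sub_const p).norm).pow_const 2)).ennreal_ofReal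
  have h1 : ∀ v : ℝ, ENNReal.ofReal (ρ v) * (g v * ENNReal.ofReal (1 / ‖(v : ℂ) - p‖ ^ 2)) ≤
      g v * ENNReal.ofReal (4 * b * φ ^ 3 * (dn p.re p.im v)⁻¹) +
        (Icc (-lam) lam).indicator (fun _ => ENNReal.ofReal (12 * b * lam)) v := by
    intro v
    have hd := dn_pos hp p.re v
    have e1 : ENNReal.ofReal (ρ v) * (g v * ENNReal.ofReal (1 / ‖(v : ℂ) - p‖ ^ 2)) =
        g v * ENNReal.ofReal (ρ v * (dn p.re p.im v)⁻¹) := by
      rw [norm_sq_eq_dn, one_div, ENNReal.ofReal_mul (h0 v)]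
      ring
    rw [e1]
    by_cases hv : v ∈ Icc (-lam) lam
    · rw [indicator_of_mem hv]
      have h2 : ph lam v ≤ φ + |v - p.re| := ph_lip lam v p.re
      have h3 : ph lam v ^ 3 ≤ 4 * φ ^ 3 + 4 * |v - p.re| ^ 3 := by
        have h4 : ph lam v ^ 3 ≤ (φ + |v - p.re|) ^ 3 :=
          pow_le_pow_left₀ (ph_nonneg _ _) h2 3
        have h6 := abs_nonneg (v - p.re)
        nlinarith [mul_nonneg (add_nonneg hφ.le h6) (sq_nonneg (φ - |v - p.re|))]
      have h7 : ρ v ≤ b * (4 * φ ^ 3 + 4 * |v - p.re| ^ 3) :=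
        (hb v).2.trans (mul_le_mul_of_nonneg_left h3 hb0.le)
      have h8 : |v - p.re| ^ 3 * (dn p.re p.im v)⁻¹ ≤ 3 * lam := by
        rw [← div_eq_mul_inv, div_le_iff₀ hd]
        have h9 : |v - p.re| ≤ 3 * lam := by
          have := abs_sub v p.re
          have h10 : |v| ≤ lam := abs_le.2 hv
          linarith
        have h11 : |v - p.re| ^ 2 ≤ dn p.re p.im v := by
          rw [sq_abs]
          unfold dn
          linarith [sq_nonneg p.im]
        calc |v - p.re| ^ 3 = |v - p.re| * |v - p.re| ^ 2 := by ring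
          _ ≤ (3 * lam) * dn p.re p.im v :=
            mul_le_mul h9 h11 (sq_nonneg _) (by positivity)
      have h9 : ρ v * (dn p.re p.im v)⁻¹ ≤ 4 * b * φ ^ 3 * (dn p.re p.im v)⁻¹ + 12 * b * lam := by
        calc ρ v * (dn p.re p.im v)⁻¹
            ≤ b * (4 * φ ^ 3 + 4 * |v - p.re| ^ 3) * (dn p.re p.im v)⁻¹ :=
              mul_le_mul_of_nonneg_right h7 (inv_nonneg.2 hd.le)
          _ = 4 * b * φ ^ 3 * (dn p.re p.im v)⁻¹ +
              4 * b * (|v - p.re| ^ 3 * (dn p.re p.im v)⁻¹) := by ring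
          _ ≤ 4 * b * φ ^ 3 * (dn p.re p.im v)⁻¹ + 4 * b * (3 * lam) := by gcongr
          _ = _ := by ring
      calc g v * ENNReal.ofReal (ρ v * (dn p.re p.im v)⁻¹)
          ≤ g v * (ENNReal.ofReal (4 * b * φ ^ 3 * (dn p.re p.im v)⁻¹) +
            ENNReal.ofReal (12 * b * lam)) := by
            refine mul_le_mul_right ?_ _
            rw [← ENNReal.ofReal_add (by positivity) (by positivity)]
            exact ENNReal.ofReal_le_ofReal h9
        _ = g v * ENNReal.ofReal (4 * b * φ ^ 3 * (dn p.re p.im v)⁻¹) +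
            g v * ENNReal.ofReal (12 * b * lam) := mul_add _ _ _
        _ ≤ g v * ENNReal.ofReal (4 * b * φ ^ 3 * (dn p.re p.im v)⁻¹) +
            1 * ENNReal.ofReal (12 * b * lam) := by
            gcongr
            exact hg1 v
        _ = _ := by rw [one_mul]
    · have hρ : ρ v = 0 := by
        have h3 : ph lam v = 0 := by
          refine ph_zero ?_
          by_contra h2
          push Not at h2
          exact hv ⟨by linarith [(abs_lt.1 h2).1], by linarith [(abs_lt.1 h2).2]⟩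
        have h4 := (hb v).2
        rw [h3] at h4
        have := h0 v
        simp at h4
        linarith
      rw [hρ, zero_mul, ENNReal.ofReal_zero, mul_zero]
      exact zero_le
  have h2 : ∫⁻ v, g v * ENNReal.ofReal (4 * b * φ ^ 3 * (dn p.re p.im v)⁻¹) =
      ENNReal.ofReal (4 * b * φ ^ 3 / p.im) * ∫⁻ x, g (p.re + p.im * x) *
        ENNReal.ofReal (1 / (1 + x ^ 2)) := by
    have hG : Measurable fun v => g v * ENNReal.ofReal (4 * b * φ ^ 3 * (dn p.re p.im v)⁻¹) :=
      hgm.mul ((continuous_dn p.re p.im).measurable.inv.const_mul _).ennreal_ofReal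
    rw [lint_affine hG p.re hp, ← lintegral_const_mul' _ _ ENNReal.ofReal_ne_top,
      ← lintegral_const_mul' _ _ ENNReal.ofReal_ne_top]
    refine lintegral_congr fun x => ?_
    have e2 : dn p.re p.im (p.re + p.im * x) = p.im ^ 2 * (1 + x ^ 2) := by
      unfold dn; ring
    have hxx : (0 : ℝ) < 1 + x ^ 2 := by positivity
    rw [e2]
    calc ENNReal.ofReal p.im * (g (p.re + p.im * x) *
          ENNReal.ofReal (4 * b * φ ^ 3 * (p.im ^ 2 * (1 + x ^ 2))⁻¹))
        = g (p.re + p.im * x) * (ENNReal.ofReal p.im *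
          ENNReal.ofReal (4 * b * φ ^ 3 * (p.im ^ 2 * (1 + x ^ 2))⁻¹)) := by ring
      _ = g (p.re + p.im * x) * (ENNReal.ofReal (4 * b * φ ^ 3 / p.im) *
          ENNReal.ofReal (1 / (1 + x ^ 2))) := by
          rw [← ENNReal.ofReal_mul hp.le, ← ENNReal.ofReal_mul (by positivity)]
          congr 2
          field_simp
      _ = _ := by ring
  have h3 : ∫⁻ v, (Icc (-lam) lam).indicator (fun _ => ENNReal.ofReal (12 * b * lam)) v =
      ENNReal.ofReal (24 * b * lam ^ 2) := by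
    rw [lintegral_indicator measurableSet_Icc, setLIntegral_const, Real.volume_Icc,
      ← ENNReal.ofReal_mul (by positivity)]
    congr 1
    ring
  have hφ3 : 0 < φ ^ 3 := pow_pos hφ 3
  have e3 : ENNReal.ofReal (4 * b * φ ^ 3 / p.im) ≤ ENNReal.ofReal (32 * b / a) * T := by
    calc ENNReal.ofReal (4 * b * φ ^ 3 / p.im)
        = ENNReal.ofReal (32 * b / a) * ENNReal.ofReal (a * φ ^ 3 / (8 * p.im)) := by
          rw [← ENNReal.ofReal_mul (by positivity)]
          congr 1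
          field_simp
          ring
      _ ≤ _ := mul_le_mul_right hT _
  have e4 : ENNReal.ofReal (24 * b * lam ^ 2) ≤ ENNReal.ofReal (192 * b * lam ^ 2 / a * ε) * T := by
    calc ENNReal.ofReal (24 * b * lam ^ 2)
        ≤ ENNReal.ofReal (192 * b * lam ^ 2 / a * ε * (a * φ ^ 3 / (8 * p.im))) := by
          refine ENNReal.ofReal_le_ofReal ?_
          have h5 : 192 * b * lam ^ 2 / a * ε * (a * φ ^ 3 / (8 * p.im)) =
              24 * b * lam ^ 2 * (ε * φ ^ 3 / p.im) := by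
            field_simp
            ring
          rw [h5]
          have h6 : 1 ≤ ε * φ ^ 3 / p.im := by
            rw [le_div_iff₀ hp, one_mul]
            exact hg.2
          have h7 : 0 ≤ 24 * b * lam ^ 2 := by positivity
          nlinarith
      _ = ENNReal.ofReal (192 * b * lam ^ 2 / a * ε) *
            ENNReal.ofReal (a * φ ^ 3 / (8 * p.im)) := by
          rw [← ENNReal.ofReal_mul (by positivity)]
      _ ≤ _ := mul_le_mul_right hT _
  have hG : Measurable fun v => g v * ENNReal.ofReal (4 * b * φ ^ 3 * (dn p.re p.im v)⁻¹) :=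
    hgm.mul ((continuous_dn p.re p.im).measurable.inv.const_mul _).ennreal_ofReal
  calc ∫⁻ v, g v * ENNReal.ofReal (1 / ‖(v : ℂ) - p‖ ^ 2) ∂ν
      = ∫⁻ v, ENNReal.ofReal (ρ v) * (g v * ENNReal.ofReal (1 / ‖(v : ℂ) - p‖ ^ 2)) := by
        rw [hν, lintegral_withDensity_eq_lintegral_mul _ hm.ennreal_ofReal hF]
        rfl
    _ ≤ ∫⁻ v, (g v * ENNReal.ofReal (4 * b * φ ^ 3 * (dn p.re p.im v)⁻¹) +
        (Icc (-lam) lam).indicator (fun _ => ENNReal.ofReal (12 * b * lam)) v) :=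
        lintegral_mono h1
    _ = ENNReal.ofReal (4 * b * φ ^ 3 / p.im) * (∫⁻ x, g (p.re + p.im * x) *
        ENNReal.ofReal (1 / (1 + x ^ 2))) + ENNReal.ofReal (24 * b * lam ^ 2) := by
        rw [lintegral_add_left hG, h2, h3]
    _ ≤ (ENNReal.ofReal (32 * b / a) * T) * (∫⁻ x, g (p.re + p.im * x) *
        ENNReal.ofReal (1 / (1 + x ^ 2))) + ENNReal.ofReal (192 * b * lam ^ 2 / a * ε) * T :=
        add_le_add (mul_le_mul_left e3 _) e4
    _ = _ := by ring

end P365T2.H486
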